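import Vale.Agent.P113.Univ

/-! An injective two-stack block system simulating a Post-Turing machine. -/

open Turing StateTransition Relation

namespace Vale.Agent.P113

section General
variable {S : Type}

/-- The symbols read by a step. -/
def rd (b : S) (c : List S × List S) : S × S × S := (c.1.getD 0 b, c.1.getD 1 b, c.2.getD 0 b)

/-- The step of the block system. -/
def nxt (b : S) (act : S × S × S → List S × List S) (c : List S × List S) : List S × List S :=
  ((act (rd b c)).1 ++ c.1.drop 2, (act (rd b c)).2 ++ c.2.drop 1)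

/-- The symbols that determine the previous step. -/
def top (b : S) (c : List S × List S) : (S × S × S × S) × (S × S × S) :=
  ((c.1.getD 0 b, c.1.getD 1 b, c.1.getD 2 b, c.1.getD 3 b),
    (c.2.getD 0 b, c.2.getD 1 b, c.2.getD 2 b))

theorem eval_dom_iff {σ : Type} (H : σ → Prop) [DecidablePred H] (F : σ → σ) (c : σ) :
    (eval (fun x => if H x then none else some (F x)) c).Dom ↔ ∃ k, H (F^[k] c) := by
  constructor
  · intro h
    obtain ⟨h1, h2⟩ := mem_eval.1 (Part.get_mem h)
    generalize (eval (fun x => if H x then none else some (F x)) c).get h = x at h1 h2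
    have h3 : ∃ k, x = F^[k] c := by
      clear h2
      induction h1 with
      | refl => exact ⟨0, rfl⟩
      | tail _ h4 ih =>
        obtain ⟨k, rfl⟩ := ih
        refine ⟨k + 1, ?_⟩
        rw [Function.iterate_succ_apply']
        beta_reduce at h4
        split_ifs at h4
        · cases h4
        · exact (Option.some.inj h4).symm
    obtain ⟨k, rfl⟩ := h3
    refine ⟨k, ?_⟩
    by_contra hc
    simp [hc] at h2
  · intro h
    have h1 : ∀ j, j ≤ Nat.find h →
        Reaches (fun x => if H x then none else some (F x)) c (F^[j] c) := by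
      intro j
      induction j with
      | zero => exact fun _ => ReflTransGen.refl
      | succ j ih =>
        intro hj
        refine ReflTransGen.tail (ih (by omega)) ?_
        have := Nat.find_min h (show j < Nat.find h by omega)
        simp [this, Function.iterate_succ_apply']
    exact Part.dom_iff_mem.2 ⟨_, mem_eval.2 ⟨h1 _ le_rfl, by simp [Nat.find_spec h]⟩⟩

end General

section Sim
variable {Γ Q : Type} [Inhabited Γ] [Inhabited Q]

abbrev Sym (Γ Q : Type) : Type := Γ ⊕ (Q × Bool × Option (Option Γ))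

def actU (U : TM0.Machine Γ Q) : Sym Γ Q × Sym Γ Q × Sym Γ Q → List (Sym Γ Q) × List (Sym Γ Q)
  | (.inl g, l, a) => ([.inr (default, false, none), .inl g, a, l], [])
  | (.inr (q, true, t), l, a) => ([.inr (q, l.isRight, some none)], [l, .inr (q, true, t), a])
  | (.inr (q, false, t), l, .inr j) => ([.inr (q, false, none), .inr (q, false, t), .inr j, l], [])
  | (.inr (q, false, t), l, .inl g) =>
    match U q g with
    | none => ([.inr (q, false, some (some g)), .inr (q, false, t), l], [.inl g])
    | some (q', .write x) => ([.inr (q', false, some (some g)), .inr (q, false, t), l], [.inl x])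
    | some (q', .move .right) => ([.inr (q', false, none), .inr (q, false, t), .inl g, l], [])
    | some (q', .move .left) =>
      ([.inr (q', true, some (some g)), .inr (q, false, t), l], [.inl g])

def backU : (Sym Γ Q × Sym Γ Q × Sym Γ Q × Sym Γ Q) × (Sym Γ Q × Sym Γ Q × Sym Γ Q) →
    Sym Γ Q × Sym Γ Q × Sym Γ Q
  | ((.inl _, x1, x2, x3), _) => (x1, x2, x3)
  | ((.inr (_, _, none), x1, x2, x3), _) => (x1, x3, x2)
  | ((.inr (_, _, some none), _, _, _), (y0, y1, y2)) => (y1, y0, y2)
  | ((.inr (_, _, some (some g)), x1, x2, _), _) => (x1, x2, .inl g)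

def haltU (U : TM0.Machine Γ Q) (r : Sym Γ Q × Sym Γ Q × Sym Γ Q) : Prop :=
  ∃ q t g, r.1 = .inr (q, false, t) ∧ r.2.2 = .inl g ∧ U q g = none

theorem back_top_nxt (U : TM0.Machine Γ Q) (c : List (Sym Γ Q) × List (Sym Γ Q)) :
    backU (top (.inl default) (nxt (.inl default) (actU U) c)) = rd (.inl default) c := by
  unfold nxt
  generalize rd (Sum.inl default : Sym Γ Q) c = r
  rcases r with ⟨g | ⟨q, _ | _, t⟩, l, g' | j⟩
  · rfl
  · rfl
  · simp only [actU]
    rcases U q g' with _ | ⟨q', (_ | _) | x⟩ <;> rfl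
  · rfl
  · rfl
  · rfl

def lb : List (Sym Γ Q) → ListBlank Γ
  | [] => ListBlank.mk []
  | .inl g :: l => (lb l).cons g
  | .inr _ :: l => lb l

omit [Inhabited Q] in
theorem cons_default_nil : (ListBlank.mk ([] : List Γ)).cons default = ListBlank.mk [] := by
  have := ListBlank.cons_head_tail (ListBlank.mk ([] : List Γ))
  simpa using this

omit [Inhabited Q] in
theorem lb_pad (l : List (Sym Γ Q)) : lb (l.getD 0 (.inl default) :: l.drop 1) = lb l := by
  cases l with
  | nil => exact cons_default_nil
  | cons a l => rfl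

open Classical in
noncomputable def stepU (U : TM0.Machine Γ Q) (c : List (Sym Γ Q) × List (Sym Γ Q)) :
    Option (List (Sym Γ Q) × List (Sym Γ Q)) :=
  if haltU U (rd (.inl default) c) then none else some (nxt (.inl default) (actU U) c)

theorem stepU_of_not {U : TM0.Machine Γ Q} {c : List (Sym Γ Q) × List (Sym Γ Q)}
    (h : ¬ haltU U (rd (.inl default) c)) : nxt (.inl default) (actU U) c ∈ stepU U c := by
  simp [stepU, h]

theorem skipR (U : TM0.Machine Γ Q) (q : Q) (R : List (Sym Γ Q)) : ∀ t L, ∃ t' L' R',
    Reaches (stepU U) (.inr (q, false, t) :: L, R) (.inr (q, false, t') :: L', R') ∧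
      lb L' = lb L ∧ lb R' = lb R ∧ ∃ g, R'.getD 0 (.inl default) = .inl g := by
  induction R with
  | nil => exact fun t L => ⟨t, L, [], ReflTransGen.refl, rfl, rfl, default, rfl⟩
  | cons a R ih =>
    intro t L
    rcases a with g | j
    · exact ⟨t, L, _, ReflTransGen.refl, rfl, rfl, g, rfl⟩
    · obtain ⟨t', L', R', h1, h2, h3, h4⟩ :=
        ih none (.inr (q, false, t) :: .inr j :: L.getD 0 (.inl default) :: L.drop 1)
      refine ⟨t', L', R', ReflTransGen.head (stepU_of_not ?_) h1, h2.trans (lb_pad L), h3, h4⟩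
      rintro ⟨_, _, _, _, h, _⟩
      cases h

theorem seekL (U : TM0.Machine Γ Q) (q : Q) (L : List (Sym Γ Q)) : ∀ t R, ∃ t' L' R',
    Reaches (stepU U) (.inr (q, true, t) :: L, R) (.inr (q, false, t') :: L', R') ∧
      lb L' = (lb L).tail ∧ lb R' = (lb R).cons (lb L).head ∧
      ∃ g, R'.getD 0 (.inl default) = .inl g := by
  have hn : ∀ t (L R : List (Sym Γ Q)),
      ¬ haltU U (rd (.inl default) (.inr (q, true, t) :: L, R)) := by
    rintro t L R ⟨_, _, _, h, _⟩
    cases h
  induction L with
  | nil =>
    intro t R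
    refine ⟨some none, [], .inl default :: .inr (q, true, t) :: R.getD 0 (.inl default) :: R.drop 1,
      ReflTransGen.single (stepU_of_not (hn _ _ _)), by simp [lb], ?_, default, rfl⟩
    simp only [lb, lb_pad]
    rfl
  | cons a L ih =>
    intro t R
    rcases a with g | j
    · refine ⟨some none, L, .inl g :: .inr (q, true, t) :: R.getD 0 (.inl default) :: R.drop 1,
        ReflTransGen.single (stepU_of_not (hn _ _ _)), by simp [lb], ?_, g, rfl⟩
      simp only [lb, lb_pad, ListBlank.head_cons]
    · obtain ⟨t', L', R', h1, h2, h3, h4⟩ :=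
        ih (some none) (.inr j :: .inr (q, true, t) :: R.getD 0 (.inl default) :: R.drop 1)
      refine ⟨t', L', R', ReflTransGen.head (stepU_of_not (hn _ _ _)) h1, h2, ?_, h4⟩
      rw [h3]
      simp only [lb, lb_pad]

def RelU (c : TM0.Cfg Γ Q) (s : List (Sym Γ Q) × List (Sym Γ Q)) : Prop :=
  ∃ t L, s.1 = .inr (c.q, false, t) :: L ∧ c.Tape = Tape.mk' (lb L) (lb s.2) ∧
    ∃ g, s.2.getD 0 (.inl default) = .inl g

theorem respectsU (U : TM0.Machine Γ Q) : Respects (TM0.step U) (stepU U) RelU := by
  rintro ⟨q, T⟩ ⟨L₀, R⟩ ⟨t, L, h1, h2, g, h3⟩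
  simp only at h1 h2 h3
  subst h1 h2
  have hR : lb R = (lb (R.drop 1)).cons g := by rw [← lb_pad R, h3]; rfl
  have hrd : rd (.inl default) (.inr (q, false, t) :: L, R) =
      (.inr (q, false, t), L.getD 0 (.inl default), .inl g) := by
    simp only [rd, h3]; rfl
  have hh : (Tape.mk' (lb L) (lb R)).head = g := by rw [hR]; simp
  simp only [TM0.step, hh]
  rcases hU : U q g with _ | ⟨q', st⟩
  · have : haltU U (rd (.inl default) (.inr (q, false, t) :: L, R)) :=
      ⟨q, t, g, by rw [hrd], by rw [hrd], hU⟩
    simp [stepU, this]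
  · have hn : ¬ haltU U (rd (.inl default) (.inr (q, false, t) :: L, R)) := by
      rw [hrd]
      rintro ⟨_, _, _, h, h', h''⟩
      cases h; cases h'
      rw [hU] at h''; cases h''
    have hs := stepU_of_not hn
    simp only [nxt, hrd, actU, hU] at hs
    rcases st with (_ | _) | x
    · obtain ⟨t', L', R', k1, k2, k3, k4⟩ := seekL U q'
        (.inr (q, false, t) :: L.getD 0 (.inl default) :: L.drop 1) (some (some g))
        (.inl g :: R.drop 1)
      refine ⟨_, ⟨t', L', rfl, ?_, k4⟩, TransGen.head' hs k1⟩
      simp only [lb, lb_pad] at k2 k3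
      simp only [Tape.move_left_mk', k2, k3, hR]
    · obtain ⟨t', L', R', k1, k2, k3, k4⟩ := skipR U q' (R.drop 1) none
        (.inr (q, false, t) :: .inl g :: L.getD 0 (.inl default) :: L.drop 1)
      refine ⟨_, ⟨t', L', rfl, ?_, k4⟩, TransGen.head' hs k1⟩
      simp only [lb, lb_pad] at k2
      simp only [Tape.move_right_mk', k2, k3, hR, ListBlank.head_cons, ListBlank.tail_cons]
    · refine ⟨_, ⟨some (some g), .inr (q, false, t) :: L.getD 0 (.inl default) :: L.drop 1,
        rfl, ?_, x, rfl⟩, TransGen.single hs⟩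
      simp only [lb, lb_pad, hR, Tape.write_mk', ListBlank.tail_cons, List.cons_append,
        List.nil_append]

omit [Inhabited Q] in
theorem lb_map_inl (l : List Γ) : lb (l.map Sum.inl : List (Sym Γ Q)) = ListBlank.mk l := by
  induction l with
  | nil => rfl
  | cons a l ih => simp only [List.map_cons, lb, ih, ListBlank.cons_mk]

theorem eval_dom_block (U : TM0.Machine Γ Q) (a : Γ) (l : List Γ) :
    (TM0.eval U (a :: l)).Dom ↔ ∃ k, haltU U (rd (.inl default)
      ((nxt (.inl default) (actU U))^[k] ([.inr (default, false, none)],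
        (a :: l).map Sum.inl))) := by
  classical
  have h := tr_eval_dom (respectsU U) (a₁ := TM0.init (a :: l))
    (a₂ := ([.inr (default, false, none)], (a :: l).map Sum.inl))
    ⟨none, [], rfl, by rw [lb_map_inl]; rfl, a, rfl⟩
  refine h.symm.trans ?_
  exact eval_dom_iff (fun c => haltU U (rd (.inl default) c)) _ _

end Sim

theorem exists_block : ∃ (S : Type) (_ : Fintype S) (bl : S) (act : S × S × S → List S × List S)
    (back : (S × S × S × S) × (S × S × S) → S × S × S) (halt : S × S × S → Prop) (s a b : S),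
    (∀ c, back (top bl (nxt bl act c)) = rd bl c) ∧ ∀ d : Data,
      (∃ k, halt (rd bl ((nxt bl act)^[k] ([s], a :: List.replicate (Encodable.encode d + 1) b))))
        ↔ ∃ k, haltsIn d k = true := by
  obtain ⟨Γ, Q, _, _, _, _, U, a, b, h⟩ := exists_universal
  refine ⟨Sym Γ Q, inferInstance, .inl default, actU U, backU, haltU U,
    .inr (default, false, none), .inl a, .inl b, back_top_nxt U, fun d => ?_⟩
  rw [← h d, eval_dom_block]
  simp

end Vale.Agent.P113
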