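import Vale.Agent.P113.Defs
import Vale.Agent.Lib.Comp.FunProp
import Mathlib.Analysis.SpecialFunctions.Exp

/-! Computable families of real numbers. -/

open Vale.Agent.Lib.Comp

namespace Vale.Agent.P113

abbrev Q3 : Type := ℕ × ℕ × ℕ

def qadd (p q : Q3) : Q3 :=
  (p.1 * (q.2.2 + 1) + q.1 * (p.2.2 + 1), p.2.1 * (q.2.2 + 1) + q.2.1 * (p.2.2 + 1),
    p.2.2 * q.2.2 + p.2.2 + q.2.2)

def qmul (p q : Q3) : Q3 :=
  (p.1 * q.1 + p.2.1 * q.2.1, p.1 * q.2.1 + p.2.1 * q.1, p.2.2 * q.2.2 + p.2.2 + q.2.2)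

def qneg (p : Q3) : Q3 := (p.2.1, p.1, p.2.2)

def qinv (p : Q3) : Q3 := (p.2.2 + 1, 0, p.1 - p.2.1 - 1)

def qfract (p : Q3) : Q3 := ((p.1 + p.2.1 * p.2.2) % (p.2.2 + 1), 0, p.2.2)

def qsum (l : List Q3) : Q3 := l.foldr qadd (0, 0, 0)

def qprod (l : List Q3) : Q3 := l.foldr qmul (1, 0, 0)

theorem rat_qadd (p q : Q3) : rat (qadd p q) = rat p + rat q := by
  simp only [rat, qadd]; push_cast; field_simp; ring

theorem rat_qmul (p q : Q3) : rat (qmul p q) = rat p * rat q := by
  simp only [rat, qmul]; push_cast; field_simp; ring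

theorem rat_qneg (p : Q3) : rat (qneg p) = - rat p := by
  simp only [rat, qneg]; ring

theorem rat_pos_iff (p : Q3) : 0 < rat p ↔ p.2.1 < p.1 := by
  simp only [rat]
  rw [div_pos_iff_of_pos_right (by positivity), sub_pos, Nat.cast_lt]

theorem rat_qinv {p : Q3} (h : 0 < rat p) : rat (qinv p) = (rat p)⁻¹ := by
  have h1 := (rat_pos_iff p).1 h
  have h2 : ((p.1 - p.2.1 - 1 : ℕ) : ℝ) + 1 = (p.1 : ℝ) - p.2.1 := by
    obtain ⟨k, hk⟩ := Nat.exists_eq_add_of_lt h1
    rw [hk, show p.2.1 + k + 1 - p.2.1 - 1 = k by omega]; push_cast; ring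
  simp only [rat, qinv, h2]
  push_cast
  rw [inv_div]; simp

theorem rat_qfract (p : Q3) : rat (qfract p) = Int.fract (rat p) := by
  have h1 : rat p = ((p.1 + p.2.1 * p.2.2 : ℕ) : ℝ) / ((p.2.2 + 1 : ℕ) : ℝ) - (p.2.1 : ℕ) := by
    simp only [rat]; push_cast; field_simp; ring
  rw [h1, Int.fract_sub_natCast, Int.fract_div_natCast_eq_div_natCast_mod]
  simp [rat, qfract]

theorem abs_rat_le (p : Q3) : |rat p| ≤ ((p.1 + p.2.1 : ℕ) : ℝ) := by
  simp only [rat]
  rw [abs_div, abs_of_pos (by positivity : (0 : ℝ) < (p.2.2 : ℝ) + 1), div_le_iff₀ (by positivity)]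
  push_cast
  have h1 : (0 : ℝ) ≤ p.1 := by positivity
  have h2 : (0 : ℝ) ≤ p.2.1 := by positivity
  have h3 : (0 : ℝ) ≤ p.2.2 := by positivity
  rw [abs_le]; constructor <;> nlinarith

theorem rat_nat (n : ℕ) : rat (n, 0, 0) = n := by simp [rat]

theorem rat_inv_succ (n : ℕ) : rat (1, 0, n) = 1 / ((n : ℝ) + 1) := by simp [rat]

theorem rat_qsum (l : List Q3) : rat (qsum l) = (l.map rat).sum := by
  induction l with
  | nil => simp [qsum, rat]
  | cons a l ih => simp only [qsum, List.foldr_cons, rat_qadd, List.map_cons, List.sum_cons] at *; rw [ih]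

theorem rat_qprod (l : List Q3) : rat (qprod l) = (l.map rat).prod := by
  induction l with
  | nil => simp [qprod, rat]
  | cons a l ih =>
    simp only [qprod, List.foldr_cons, rat_qmul, List.map_cons, List.prod_cons] at *; rw [ih]

theorem exists_rat_eq (q : ℚ) : ∃ p : Q3, rat p = q := by
  refine ⟨(q.num.toNat, (-q.num).toNat, q.den - 1), ?_⟩
  have h1 : ((q.den - 1 : ℕ) : ℝ) + 1 = q.den := by
    have := q.den_pos
    obtain ⟨k, hk⟩ := Nat.exists_eq_add_of_lt this
    rw [hk]; simp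
  have h2 : ((q.num.toNat : ℕ) : ℝ) - ((-q.num).toNat : ℕ) = (q.num : ℝ) := by
    have := Int.toNat_sub_toNat_neg q.num
    exact_mod_cast congrArg (fun z : ℤ => (z : ℝ)) this
  simp only [rat, h1, h2]
  exact (Rat.cast_def q).symm

section
variable {A B : Type*} [Primcodable A] [Primcodable B]

@[fun_prop] theorem pr_qadd {f g : A → Q3} (hf : Primrec f) (hg : Primrec g) :
    Primrec fun a => qadd (f a) (g a) := by unfold qadd; fun_prop

@[fun_prop] theorem pr_qmul {f g : A → Q3} (hf : Primrec f) (hg : Primrec g) :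
    Primrec fun a => qmul (f a) (g a) := by unfold qmul; fun_prop

theorem pr_qneg : Primrec qneg := by unfold qneg; fun_prop

theorem pr_qinv : Primrec qinv := by unfold qinv; fun_prop

theorem pr_qfract : Primrec qfract := by unfold qfract; fun_prop

theorem pr_qsum : Primrec qsum := by unfold qsum; fun_prop

theorem pr_qprod : Primrec qprod := by unfold qprod; fun_prop

theorem pr_natsum : Primrec fun l : List ℕ => l.sum :=
  (by fun_prop : Primrec fun l : List ℕ => l.foldr (fun a b => a + b) 0).of_eq fun l => by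
    induction l with
    | nil => rfl
    | cons a l ih => simp [ih]

/-- A computable family of reals. -/
def CR (x : A → ℝ) : Prop :=
  ∃ g : A × ℕ → Q3, Computable g ∧ ∀ a n, |rat (g (a, n)) - x a| ≤ 1 / ((n : ℝ) + 1)

theorem CR.of_rat {q : A → Q3} (hq : Computable q) : CR fun a => rat (q a) :=
  ⟨fun p => q p.1, by fun_prop, fun a n => by simp; positivity⟩

theorem CR.congr {x y : A → ℝ} (h : CR x) (e : ∀ a, x a = y a) : CR y := by
  rwa [show y = x from (funext e).symm]

theorem CR.comp {x : A → ℝ} (h : CR x) {φ : B → A} (hφ : Computable φ) : CR fun b => x (φ b) := by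
  obtain ⟨g, hg, hx⟩ := h
  exact ⟨fun p => g (φ p.1, p.2), by fun_prop, fun b n => hx _ _⟩

theorem CR.of_nat {k : A → ℕ} (hk : Computable k) : CR fun a => (k a : ℝ) :=
  (CR.of_rat (q := fun a => (k a, 0, 0)) (by fun_prop)).congr fun a => rat_nat _

theorem CR.const_rat (q : ℚ) : CR fun _ : A => (q : ℝ) := by
  obtain ⟨p, hp⟩ := exists_rat_eq q
  exact (CR.of_rat (q := fun _ => p) (by fun_prop)).congr fun _ => hp

theorem CR.bound {x : A → ℝ} (h : CR x) : ∃ b : A → ℕ, Computable b ∧ ∀ a, |x a| ≤ b a := by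
  obtain ⟨g, hg, hx⟩ := h
  refine ⟨fun a => (g (a, 0)).1 + (g (a, 0)).2.1 + 1, by fun_prop, fun a => ?_⟩
  have h1 := hx a 0
  have h2 := abs_rat_le (g (a, 0))
  have h3 : |x a| ≤ |rat (g (a, 0))| + |rat (g (a, 0)) - x a| := by
    simpa using abs_sub (rat (g (a, 0))) (rat (g (a, 0)) - x a)
  push_cast at *
  simp at h1
  linarith

theorem CR.lim {x : A × ℕ → ℝ} {y : A → ℝ} (h : CR x)
    (e : ∀ a n, |x (a, n) - y a| ≤ 1 / ((n : ℝ) + 1)) : CR y := by
  obtain ⟨g, hg, hx⟩ := h
  refine ⟨fun p => g ((p.1, 2 * p.2 + 1), 2 * p.2 + 1), by fun_prop, fun a n => ?_⟩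
  have h1 := hx (a, 2 * n + 1) (2 * n + 1)
  have h2 := e a (2 * n + 1)
  have h3 : 1 / (((2 * n + 1 : ℕ) : ℝ) + 1) + 1 / (((2 * n + 1 : ℕ) : ℝ) + 1)
      = 1 / ((n : ℝ) + 1) := by push_cast; field_simp; ring
  calc _ ≤ |rat (g ((a, 2 * n + 1), 2 * n + 1)) - x (a, 2 * n + 1)| + |x (a, 2 * n + 1) - y a| :=
        abs_sub_le _ _ _
    _ ≤ _ := by linarith

theorem CR.cond {c : A → Bool} {x y : A → ℝ} (hc : Computable c) (hx : CR x) (hy : CR y) :
    CR fun a => bif c a then x a else y a := by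
  obtain ⟨g, hg, hx⟩ := hx
  obtain ⟨k, hk, hy⟩ := hy
  refine ⟨fun p => bif c p.1 then g p else k p, by fun_prop, fun a n => ?_⟩
  cases h : c a <;> simp [h, hx a n, hy a n, -one_div]

theorem CR.sumElim {C : Type*} [Primcodable C] {s : A → B ⊕ C} {x : A × B → ℝ} {y : A × C → ℝ}
    (hs : Computable s) (hx : CR x) (hy : CR y) :
    CR fun a => Sum.elim (fun b => x (a, b)) (fun c => y (a, c)) (s a) := by
  obtain ⟨g, hg, hx⟩ := hx
  obtain ⟨k, hk, hy⟩ := hy
  refine ⟨fun p => Sum.elim (fun b => g ((p.1, b), p.2)) (fun c => k ((p.1, c), p.2)) (s p.1),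
    by fun_prop, fun a n => ?_⟩
  cases h : s a <;> simp [h, hx _ n, hy _ n, -one_div]

theorem abs_sum_map_sub_le {β : Type*} (l : List β) (r x : β → ℝ) (δ : ℝ)
    (h : ∀ b, |r b - x b| ≤ δ) : |(l.map r).sum - (l.map x).sum| ≤ l.length * δ := by
  induction l with
  | nil => simp
  | cons b l ih =>
    simp only [List.map_cons, List.sum_cons, List.length_cons]
    push_cast
    have := abs_add_le (r b - x b) ((l.map r).sum - (l.map x).sum)
    have h2 := h b
    rw [show r b + (l.map r).sum - (x b + (l.map x).sum)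
      = r b - x b + ((l.map r).sum - (l.map x).sum) by ring]
    linarith

theorem mul_div_le_aux (c n : ℕ) :
    (c : ℝ) * (1 / (((c * (n + 1) : ℕ) : ℝ) + 1)) ≤ 1 / ((n : ℝ) + 1) := by
  push_cast
  rw [mul_one_div, div_le_div_iff₀ (by positivity) (by positivity)]
  linarith

theorem CR.list_sum {x : A × B → ℝ} (h : CR x) {l : A → List B} (hl : Computable l) :
    CR fun a => ((l a).map fun b => x (a, b)).sum := by
  obtain ⟨g, hg, hx⟩ := h
  refine ⟨fun p => qsum ((l p.1).map fun b => g ((p.1, b), (l p.1).length * (p.2 + 1))),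
    pr_qsum.to_comp.comp (by fun_prop), fun a n => ?_⟩
  rw [rat_qsum, List.map_map]
  exact (abs_sum_map_sub_le _ _ _ _ fun b => hx (a, b) _).trans (mul_div_le_aux _ _)

theorem abs_prod_map_le {β : Type*} (l : List β) (x : β → ℝ) (C : ℝ)
    (h : ∀ b ∈ l, |x b| ≤ C) : |(l.map x).prod| ≤ C ^ l.length := by
  induction l with
  | nil => simp
  | cons b l ih =>
    simp only [List.map_cons, List.prod_cons, List.length_cons, abs_mul, pow_succ']
    have h1 := h b (by simp)
    exact mul_le_mul h1 (ih fun c hc => h c (by simp [hc])) (abs_nonneg _)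
      ((abs_nonneg _).trans h1)

theorem abs_prod_map_sub_le {β : Type*} (l : List β) (r x : β → ℝ) (C δ : ℝ) (hC : 1 ≤ C)
    (hδ : 0 ≤ δ) (hx : ∀ b ∈ l, |x b| ≤ C) (hr : ∀ b ∈ l, |r b| ≤ C)
    (h : ∀ b, |r b - x b| ≤ δ) :
    |(l.map r).prod - (l.map x).prod| ≤ l.length * C ^ l.length * δ := by
  induction l with
  | nil => simp
  | cons b l ih =>
    simp only [List.map_cons, List.prod_cons, List.length_cons]
    have ih' := ih (fun c hc => hx c (by simp [hc])) (fun c hc => hr c (by simp [hc]))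
    have h1 := abs_prod_map_le l x C (fun c hc => hx c (by simp [hc]))
    have h2 := hr b (by simp)
    have h3 := h b
    have hp : 0 ≤ C ^ l.length := by positivity
    rw [show r b * (l.map r).prod - x b * (l.map x).prod
      = r b * ((l.map r).prod - (l.map x).prod) + (r b - x b) * (l.map x).prod by ring]
    calc _ ≤ |r b| * |(l.map r).prod - (l.map x).prod| + |r b - x b| * |(l.map x).prod| := by
          simpa only [abs_mul] using
            abs_add_le (r b * ((l.map r).prod - (l.map x).prod)) ((r b - x b) * (l.map x).prod)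
      _ ≤ C * (l.length * C ^ l.length * δ) + δ * C ^ l.length := by
          gcongr
      _ ≤ C * (l.length * C ^ l.length * δ) + C * (δ * C ^ l.length) := by
          have : 0 ≤ δ * C ^ l.length := by positivity
          nlinarith
      _ = _ := by push_cast; ring

theorem CR.list_prod {x : A × B → ℝ} (h : CR x) {l : A → List B} (hl : Computable l) :
    CR fun a => ((l a).map fun b => x (a, b)).prod := by
  obtain ⟨bd, hbd, hb⟩ := h.bound
  obtain ⟨g, hg, hx⟩ := h
  have hS : Computable fun a => ((l a).map fun b => bd (a, b)).sum + 1 :=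
    co_add (pr_natsum.to_comp.comp (by fun_prop)) (by fun_prop)
  set S : A → ℕ := fun a => ((l a).map fun b => bd (a, b)).sum + 1 with hSdef
  refine ⟨fun p => qprod ((l p.1).map fun b =>
      g ((p.1, b), (l p.1).length * S p.1 ^ (l p.1).length * (p.2 + 1))),
    pr_qprod.to_comp.comp (by fun_prop), fun a n => ?_⟩
  rw [rat_qprod, List.map_map]
  have h1 : ∀ b ∈ l a, |x (a, b)| + 1 ≤ (S a : ℝ) := by
    intro b hb'
    have : bd (a, b) ≤ ((l a).map fun b => bd (a, b)).sum :=
      List.single_le_sum (fun _ _ => Nat.zero_le _) _ (List.mem_map_of_mem hb')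
    have h2 : ((bd (a, b) : ℕ) : ℝ) ≤ (((l a).map fun b => bd (a, b)).sum : ℕ) := by
      exact_mod_cast this
    simp only [hSdef]
    push_cast at h2 ⊢
    linarith [hb (a, b)]
  have hS1 : (1 : ℝ) ≤ S a := by simp only [hSdef]; exact_mod_cast Nat.le_add_left _ _
  set N := (l a).length * S a ^ (l a).length * (n + 1) with hN
  have hδ1 : 1 / ((N : ℝ) + 1) ≤ 1 := by
    rw [div_le_one (by positivity)]; linarith [(Nat.cast_nonneg N : (0 : ℝ) ≤ N)]
  refine (abs_prod_map_sub_le (l a) _ _ (S a) (1 / ((N : ℝ) + 1)) hS1 (by positivity)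
    (fun b hb' => by linarith [h1 b hb']) (fun b hb' => ?_) fun b => hx (a, b) _).trans ?_
  · have h3 := hx (a, b) N
    have h4 := abs_add_le (rat (g ((a, b), N)) - x (a, b)) (x (a, b))
    simp only [sub_add_cancel] at h4
    linarith [h1 b hb']
  · have := mul_div_le_aux ((l a).length * S a ^ (l a).length) n
    simpa [hN] using this

theorem CR.add {x y : A → ℝ} (hx : CR x) (hy : CR y) : CR fun a => x a + y a := by
  have h := (CR.cond (c := fun p : A × Bool => p.2) (by fun_prop) (hx.comp Computable.fst)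
    (hy.comp Computable.fst)).list_sum (l := fun _ => [true, false]) (by fun_prop)
  exact h.congr fun a => by simp

theorem CR.mul {x y : A → ℝ} (hx : CR x) (hy : CR y) : CR fun a => x a * y a := by
  have h := (CR.cond (c := fun p : A × Bool => p.2) (by fun_prop) (hx.comp Computable.fst)
    (hy.comp Computable.fst)).list_prod (l := fun _ => [true, false]) (by fun_prop)
  exact h.congr fun a => by simp

theorem CR.neg {x : A → ℝ} (hx : CR x) : CR fun a => - x a :=
  ((CR.const_rat (-1)).mul hx).congr fun a => by simp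

theorem CR.sub {x y : A → ℝ} (hx : CR x) (hy : CR y) : CR fun a => x a - y a :=
  (hx.add hy.neg).congr fun a => by ring

theorem CR.pow {x : A → ℝ} (hx : CR x) {k : A → ℕ} (hk : Computable k) :
    CR fun a => x a ^ k a := by
  have h := (hx.comp (φ := fun p : A × ℕ => p.1) Computable.fst).list_prod
    (l := fun a => List.range (k a)) (by fun_prop)
  exact h.congr fun a => by simp

theorem CR.inv {x : A → ℝ} (hx : CR x) (N : ℕ) (hN : ∀ a, 1 / ((N : ℝ) + 1) ≤ x a) :
    CR fun a => (x a)⁻¹ := by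
  obtain ⟨g, hg, hx⟩ := hx
  refine ⟨fun p => qinv (g (p.1, 2 * (N + 1) ^ 2 * (p.2 + 1))),
    pr_qinv.to_comp.comp (by fun_prop), fun a n => ?_⟩
  set m := 2 * (N + 1) ^ 2 * (n + 1) with hm
  set r := rat (g (a, m)) with hr
  have h1 : |r - x a| ≤ 1 / ((m : ℝ) + 1) := hx a m
  have h2 := hN a
  have hN0 : (0 : ℝ) ≤ N := by positivity
  have hn0 : (0 : ℝ) ≤ n := by positivity
  have hmr : (m : ℝ) = 2 * (N + 1) ^ 2 * (n + 1) := by simp [hm]
  have h3 : 1 / ((m : ℝ) + 1) ≤ 1 / (2 * ((N : ℝ) + 1)) := by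
    apply one_div_le_one_div_of_le (by positivity)
    rw [hmr]; nlinarith
  have h4 : 1 / (2 * ((N : ℝ) + 1)) ≤ r := by
    have : 1 / ((N : ℝ) + 1) = 1 / (2 * ((N : ℝ) + 1)) + 1 / (2 * ((N : ℝ) + 1)) := by
      field_simp; ring
    have h5 := (abs_le.1 h1).1
    linarith
  have hrpos : 0 < r := lt_of_lt_of_le (by positivity) h4
  have hxpos : 0 < x a := lt_of_lt_of_le (by positivity) h2
  rw [rat_qinv hrpos, ← hr]
  have h6 : r⁻¹ - (x a)⁻¹ = (x a - r) * (r⁻¹ * (x a)⁻¹) := by field_simp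
  have h7 : r⁻¹ ≤ 2 * ((N : ℝ) + 1) := by
    rw [inv_le_comm₀ hrpos (by positivity)]; simpa using h4
  have h8 : (x a)⁻¹ ≤ (N : ℝ) + 1 := by
    rw [inv_le_comm₀ hxpos (by positivity)]; simpa using h2
  rw [h6, abs_mul, abs_sub_comm, abs_of_pos (by positivity : 0 < r⁻¹ * (x a)⁻¹)]
  calc |r - x a| * (r⁻¹ * (x a)⁻¹) ≤ 1 / ((m : ℝ) + 1) * (2 * ((N : ℝ) + 1) * ((N : ℝ) + 1)) := by
        gcongr
    _ ≤ 1 / ((n : ℝ) + 1) := by
        rw [hmr, one_div_mul_eq_div, div_le_div_iff₀ (by positivity) (by positivity)]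
        nlinarith

theorem prod_range_div (y : ℝ) (m : ℕ) :
    ((List.range m).map fun i : ℕ => y * (1 / ((i : ℝ) + 1))).prod = y ^ m / m.factorial := by
  induction m with
  | zero => simp
  | succ m ih =>
    rw [List.range_succ, List.map_append, List.prod_append, ih, Nat.factorial_succ]
    push_cast
    simp only [List.map_cons, List.map_nil, List.prod_cons, List.prod_nil]
    field_simp
    ring

theorem CR.exp_small {y : A → ℝ} (hy : CR y) (h1 : ∀ a, |y a| ≤ 1) :
    CR fun a => Real.exp (y a) := by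
  have t1 : CR fun p : ((A × ℕ) × ℕ) × ℕ => y p.1.1.1 * (1 / ((p.2 : ℝ) + 1)) :=
    (hy.comp (by fun_prop)).mul
      ((CR.of_rat (q := fun p : ((A × ℕ) × ℕ) × ℕ => (1, 0, p.2)) (by fun_prop)).congr
        fun p => rat_inv_succ _)
  have t2 := t1.list_prod (l := fun p => List.range p.2) (by fun_prop)
  have t3 := t2.list_sum (l := fun p => List.range (2 * p.2 + 2)) (by fun_prop)
  refine t3.lim fun a n => ?_
  simp only [prod_range_div]
  have hs : ∀ (f : ℕ → ℝ) (m : ℕ), ((List.range m).map f).sum = ∑ i ∈ Finset.range m, f i := by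
    intro f m
    induction m with
    | zero => simp
    | succ m ih => simp [List.range_succ, Finset.sum_range_succ, ih]
  rw [hs, abs_sub_comm]
  refine (Real.exp_bound (h1 a) (n := 2 * n + 2) (by omega)).trans ?_
  have h2 : |y a| ^ (2 * n + 2) ≤ 1 := pow_le_one₀ (abs_nonneg _) (h1 a)
  have h3 : ((2 * n + 2 : ℕ) : ℝ) ≤ ((2 * n + 2).factorial : ℝ) := by
    exact_mod_cast Nat.self_le_factorial _
  have hn0 : (0 : ℝ) ≤ n := by positivity
  have h4 : (((2 * n + 2).succ : ℕ) : ℝ) / (((2 * n + 2).factorial : ℝ) * ((2 * n + 2 : ℕ) : ℝ))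
      ≤ 1 / ((n : ℝ) + 1) := by
    rw [div_le_div_iff₀ (by positivity) (by positivity)]
    push_cast at h3 ⊢
    nlinarith
  calc _ ≤ 1 * (1 / ((n : ℝ) + 1)) := by gcongr
    _ = _ := one_mul _

theorem CR.exp {x : A → ℝ} (hx : CR x) : CR fun a => Real.exp (x a) := by
  obtain ⟨b, hb, hxb⟩ := hx.bound
  have t1 : CR fun a => x a * (1 / ((b a : ℝ) + 1)) :=
    hx.mul ((CR.of_rat (q := fun a => (1, 0, b a)) (by fun_prop)).congr fun p => rat_inv_succ _)
  have t2 := (t1.exp_small fun a => by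
    rw [abs_mul, abs_of_pos (by positivity : (0 : ℝ) < 1 / ((b a : ℝ) + 1)), mul_one_div,
      div_le_one (by positivity)]
    linarith [hxb a]).pow (k := fun a => b a + 1) (by fun_prop)
  refine t2.congr fun a => ?_
  rw [← Real.exp_nat_mul]
  congr 1
  push_cast
  field_simp

end

end Vale.Agent.P113
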