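import Mathlib.Analysis.Calculus.ContDiff.Defs
import Mathlib.Analysis.Calculus.Deriv.Basic
import Mathlib.Analysis.Fourier.AddCircleMulti
import Mathlib.MeasureTheory.Integral.Bochner.Basic
import Mathlib.Computability.PartrecCode

/-!
Definitions used in the statement of the P113 theorem.
-/

open Set MeasureTheory
open scoped ContDiff

namespace Vale.Agent.P113

/-! ### The flat torus, classical solutions, trajectories -/

/-- The flat torus `(ℝ/ℤ)³`. -/
abbrev T3 : Type := Fin 3 → UnitAddCircle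

/-- The covering projection `ℝ³ → 𝕋³`. -/
def proj (x : Fin 3 → ℝ) : T3 := fun j => (x j : UnitAddCircle)

/-- The point `x + s e_j` of the torus. -/
noncomputable def shift (x : T3) (j : Fin 3) (s : ℝ) : T3 :=
  x + Pi.single j (s : UnitAddCircle)

/-- The spatial derivative `∂_j g` of a function on the torus. -/
noncomputable def dx (j : Fin 3) (g : T3 → ℝ) (x : T3) : ℝ :=
  deriv (fun s : ℝ => g (shift x j s)) 0

/-- `∂_j g` exists at every point of the torus. -/
def HasDx (j : Fin 3) (g : T3 → ℝ) : Prop :=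
  ∀ x, DifferentiableAt ℝ (fun s : ℝ => g (shift x j s)) 0

/-- The time derivative on `[0,T]` (one-sided at the two ends). -/
noncomputable def dt (T : ℝ) (g : ℝ → T3 → ℝ) (t : ℝ) (x : T3) : ℝ :=
  derivWithin (fun s : ℝ => g s x) (Icc 0 T) t

/-- Joint continuity on `[0,T] × 𝕋³`. -/
def ContOn (T : ℝ) (g : ℝ → T3 → ℝ) : Prop :=
  ContinuousOn (fun z : ℝ × T3 => g z.1 z.2) (Icc 0 T ×ˢ univ)

/-- `(u, p)` is a classical solution on `[0,T] × 𝕋³` of the Navier-Stokes system with viscosity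
`ν`, force `f` and zero initial velocity. -/
structure IsClassical (ν : ℝ) (f : ℝ → T3 → Fin 3 → ℝ) (T : ℝ)
    (u : ℝ → T3 → Fin 3 → ℝ) (p : ℝ → T3 → ℝ) : Prop where
  diff_t : ∀ i x, DifferentiableOn ℝ (fun t => u t x i) (Icc 0 T)
  diff_x : ∀ t ∈ Icc 0 T, ∀ i j, HasDx j (fun x => u t x i)
  diff_xx : ∀ t ∈ Icc 0 T, ∀ i j k, HasDx k (dx j (fun x => u t x i))
  diff_p : ∀ t ∈ Icc 0 T, ∀ j, HasDx j (p t)
  cont_u : ∀ i, ContOn T (fun t x => u t x i)
  cont_ut : ∀ i, ContOn T (dt T (fun t x => u t x i))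
  cont_ux : ∀ i j, ContOn T (fun t => dx j (fun x => u t x i))
  cont_uxx : ∀ i j k, ContOn T (fun t => dx k (dx j (fun x => u t x i)))
  cont_p : ContOn T p
  cont_px : ∀ j, ContOn T (fun t => dx j (p t))
  mean_p : ∀ t ∈ Icc 0 T, ∫ x, p t x = 0
  momentum : ∀ t ∈ Icc 0 T, ∀ x i,
    dt T (fun s y => u s y i) t x + ∑ j, u t x j * dx j (fun y => u t y i) x
      = - dx i (p t) x + ν * ∑ j, dx j (dx j (fun y => u t y i)) x + f t x i
  div_free : ∀ t ∈ Icc 0 T, ∀ x, ∑ j, dx j (fun y => u t y j) x = 0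
  at_rest : ∀ x, u 0 x = 0

/-- A function of `(t, x) ∈ ℝ × 𝕋³` read in the coordinates `(t, x₁, x₂, x₃) ∈ ℝ⁴`. -/
def lift (g : ℝ → T3 → ℝ) (y : Fin 4 → ℝ) : ℝ := g (y 0) (proj fun j => y j.succ)

/-- `g` is `C^∞` on `ℝ × 𝕋³`. -/
def Smooth (g : ℝ → T3 → ℝ) : Prop := ContDiff ℝ ∞ (lift g)

/-- `X : [0,∞) → ℝ³` is a lift of the trajectory of `a` under `u`:
`X(0)` lies over `a` and `X'(t) = u(t, X(t))` for all `t ≥ 0`. -/
def IsTrajectory (u : ℝ → T3 → Fin 3 → ℝ) (a : T3) (X : ℝ → Fin 3 → ℝ) : Prop :=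
  proj (X 0) = a ∧ ∀ t, 0 ≤ t → HasDerivWithinAt X (u t (proj (X t))) (Ici 0) t

/-! ### Turing machines -/

/-- A deterministic one-tape Turing machine with states `Fin (nq+1)` and alphabet `Fin (ns+1)`,
the symbol `0` being the blank. The transition gives the new state, the symbol written and the
head move `m` (`0` left, `1` stay, `2` right). -/
structure Machine where
  nq : ℕ
  ns : ℕ
  start : Fin (nq + 1)
  halting : Fin (nq + 1) → Bool
  trans : Fin (nq + 1) → Fin (ns + 1) → Fin (nq + 1) × Fin (ns + 1) × Fin 3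

/-- One step on configurations (state, two-sided tape, head position). -/
def Machine.step (M : Machine) (c : Fin (M.nq + 1) × (ℤ → Fin (M.ns + 1)) × ℤ) :
    Fin (M.nq + 1) × (ℤ → Fin (M.ns + 1)) × ℤ :=
  ((M.trans c.1 (c.2.1 c.2.2)).1,
    Function.update c.2.1 c.2.2 (M.trans c.1 (c.2.1 c.2.2)).2.1,
    c.2.2 + (((M.trans c.1 (c.2.1 c.2.2)).2.2 : ℕ) : ℤ) - 1)

/-- The starting configuration: the word `w` in cells `0, 1, …`, blanks elsewhere, head at `0`. -/
def Machine.first (M : Machine) (w : List (Fin (M.ns + 1))) :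
    Fin (M.nq + 1) × (ℤ → Fin (M.ns + 1)) × ℤ :=
  (M.start, fun i => if 0 ≤ i then w.getD i.toNat 0 else 0, 0)

/-- `M` halts on `w`: a halting state is reached after finitely many steps, possibly none. -/
def Machine.Halts (M : Machine) (w : List (Fin (M.ns + 1))) : Prop :=
  ∃ n : ℕ, M.halting (M.step^[n] (M.first w)).1 = true

/-- Finite descriptions of a pair (machine, input): start state, list of halting flags,
transition table (rows are states, columns are symbols), input word. -/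
abbrev Data : Type := ℕ × List Bool × List (List (ℕ × ℕ × ℕ)) × List ℕ

/-- The finite description of the pair `(M, w)` that is handed to the compiler. -/
def Machine.data (M : Machine) (w : List (Fin (M.ns + 1))) : Data :=
  (M.start.val, List.ofFn M.halting,
    List.ofFn (fun q => List.ofFn fun a =>
      ((M.trans q a).1.val, (M.trans q a).2.1.val, (M.trans q a).2.2.val)),
    w.map Fin.val)

/-! ### Computable reals and effective forces -/

/-- The rational number `(a - b) / (c + 1)` named by the triple `(a, b, c)`. -/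
noncomputable def rat (q : ℕ × ℕ × ℕ) : ℝ := ((q.1 : ℝ) - (q.2.1 : ℝ)) / ((q.2.2 : ℝ) + 1)

/-- A computable real number. -/
def ComputableReal (x : ℝ) : Prop :=
  ∃ g : ℕ → ℕ × ℕ × ℕ, Computable g ∧ ∀ n : ℕ, |rat (g n) - x| ≤ 1 / ((n : ℝ) + 1)

/-- The derivative `∂_j G` in the `j`-th coordinate of `ℝ⁴` (coordinate `0` is time). -/
noncomputable def pd (j : Fin 4) (G : (Fin 4 → ℝ) → ℝ) (y : Fin 4 → ℝ) : ℝ :=
  deriv (fun s : ℝ => G (y + Pi.single j s)) 0

/-- The mixed derivative `∂_{j₁} ⋯ ∂_{j_k} G` for the list `[j₁, …, j_k]`. -/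
noncomputable def mixed (α : List (Fin 4)) (G : (Fin 4 → ℝ) → ℝ) : (Fin 4 → ℝ) → ℝ :=
  α.foldr pd G

/-- The rational point of `ℝ⁴` named by four triples. -/
noncomputable def ratPoint
    (y : (ℕ × ℕ × ℕ) × (ℕ × ℕ × ℕ) × (ℕ × ℕ × ℕ) × (ℕ × ℕ × ℕ)) : Fin 4 → ℝ :=
  ![rat y.1, rat y.2.1, rat y.2.2.1, rat y.2.2.2]

/-- The program `c` returns every mixed derivative of every component of `f` at every rational
point to any prescribed positive rational accuracy. -/
def Computes (c : Nat.Partrec.Code) (f : ℝ → T3 → Fin 3 → ℝ) : Prop :=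
  ∀ (i : Fin 3) (α : List (Fin 4))
    (y : (ℕ × ℕ × ℕ) × (ℕ × ℕ × ℕ) × (ℕ × ℕ × ℕ) × (ℕ × ℕ × ℕ)) (ε : ℕ × ℕ × ℕ), 0 < rat ε →
    ∃ r : ℕ × ℕ × ℕ, Encodable.encode r ∈ c.eval (Encodable.encode (i, α, y, ε)) ∧
      |rat r - mixed α (lift fun t x => f t x i) (ratPoint y)| ≤ rat ε

end Vale.Agent.P113
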