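import Vale.Agent.P113.CR
import Mathlib.Analysis.SpecialFunctions.SmoothTransition

/-! Effective smooth functions on `ℝ⁴`. -/

open Vale.Agent.Lib.Comp Filter Topology
open scoped ContDiff

namespace Vale.Agent.P113

abbrev R4 : Type := Fin 4 → ℝ

abbrev P4 : Type := Q3 × Q3 × Q3 × Q3

/-- `G'` is the `j`-th coordinate derivative of `G`. -/
def HP (j : Fin 4) (G G' : R4 → ℝ) : Prop :=
  ∀ y, HasDerivAt (fun s : ℝ => G (y + Pi.single j s)) (G' y) 0

theorem HP.pd_eq {j : Fin 4} {G G' : R4 → ℝ} (h : HP j G G') : pd j G = G' :=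
  funext fun y => (h y).deriv

theorem hasDerivAt_line (j : Fin 4) (y : R4) (s : ℝ) :
    HasDerivAt (fun s : ℝ => y + Pi.single j s) (Pi.single j (1 : ℝ) : R4) s := by
  have h : (fun s : ℝ => y + Pi.single j s) = fun s : ℝ => y + s • (Pi.single j (1 : ℝ) : R4) := by
    funext s
    rw [← Pi.single_smul, smul_eq_mul, mul_one]
  rw [h]
  simpa using ((hasDerivAt_id s).smul_const (Pi.single j (1 : ℝ) : R4)).const_add y

theorem hp_fderiv {G : R4 → ℝ} (hG : Differentiable ℝ G) (j : Fin 4) :
    HP j G (fun y => fderiv ℝ G y (Pi.single j 1)) := by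
  intro y
  have h1 : HasFDerivAt G (fderiv ℝ G y) (y + Pi.single j (0 : ℝ)) := by
    simpa using (hG y).hasFDerivAt
  exact h1.comp_hasDerivAt (0 : ℝ) (hasDerivAt_line j y 0)

theorem hp_pd {G : R4 → ℝ} (hG : ContDiff ℝ ∞ G) (j : Fin 4) : HP j G (pd j G) := by
  have h := hp_fderiv (hG.differentiable (by simp)) j
  rw [h.pd_eq]; exact h

theorem contDiff_pd {G : R4 → ℝ} (hG : ContDiff ℝ ∞ G) (j : Fin 4) : ContDiff ℝ ∞ (pd j G) := by
  rw [(hp_fderiv (hG.differentiable (by simp)) j).pd_eq]
  exact (hG.fderiv_right (m := ∞) (by simp)).clm_apply contDiff_const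

theorem contDiff_mixed {G : R4 → ℝ} (hG : ContDiff ℝ ∞ G) (α : List (Fin 4)) :
    ContDiff ℝ ∞ (mixed α G) := by
  induction α with
  | nil => exact hG
  | cons j α ih => exact contDiff_pd ih j

theorem HP.congr {j : Fin 4} {G G' G'' : R4 → ℝ} (h : HP j G G') (e : ∀ y, G' y = G'' y) :
    HP j G G'' := fun y => e y ▸ h y

theorem HP.const (j : Fin 4) (c : ℝ) : HP j (fun _ => c) (fun _ => 0) :=
  fun _ => hasDerivAt_const _ _

theorem HP.add {j : Fin 4} {G G' H H' : R4 → ℝ} (h : HP j G G') (k : HP j H H') :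
    HP j (fun y => G y + H y) (fun y => G' y + H' y) := fun y => (h y).fun_add (k y)

theorem HP.sub {j : Fin 4} {G G' H H' : R4 → ℝ} (h : HP j G G') (k : HP j H H') :
    HP j (fun y => G y - H y) (fun y => G' y - H' y) := fun y => (h y).fun_sub (k y)

theorem HP.mul {j : Fin 4} {G G' H H' : R4 → ℝ} (h : HP j G G') (k : HP j H H') :
    HP j (fun y => G y * H y) (fun y => G' y * H y + G y * H' y) := fun y => by
  have := (h y).fun_mul (k y)
  simp only [Pi.single_zero, add_zero] at this
  exact this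

theorem HP.sum {ι : Type*} (s : Finset ι) {j : Fin 4} {G G' : ι → R4 → ℝ}
    (h : ∀ i, HP j (G i) (G' i)) :
    HP j (fun y => ∑ i ∈ s, G i y) (fun y => ∑ i ∈ s, G' i y) :=
  fun y => HasDerivAt.fun_sum fun i _ => h i y

theorem HP.coord {g g' : ℝ → ℝ} (h : ∀ x, HasDerivAt g (g' x) x) (j k : Fin 4) :
    HP j (fun y => g (y k)) (fun y => if j = k then g' (y k) else 0) := by
  intro y
  by_cases e : j = k
  · subst e
    simp only [Pi.add_apply, Pi.single_eq_same, if_true]
    have h1 : HasDerivAt g (g' (y j)) (y j + 0) := by simpa using h (y j)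
    exact h1.comp_const_add (y j) 0
  · simp only [Pi.add_apply, Pi.single_eq_of_ne (Ne.symm e), add_zero, if_neg e]
    exact hasDerivAt_const _ _

section Poly
variable {G : Type*}

/-- Value of a polynomial given as a list of monomials. -/
noncomputable def evalP (g : G → R4 → ℝ) (P : List (List G)) (y : R4) : ℝ :=
  (P.map fun m => (m.map fun i => g i y).prod).sum

def dMon (d : G → List (List G)) : List G → List (List G)
  | [] => []
  | i :: m => (d i).map (fun n => n ++ m) ++ (dMon d m).map (fun n => i :: n)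

def dPoly (d : G → List (List G)) (P : List (List G)) : List (List G) := P.flatMap (dMon d)

theorem evalP_append (g : G → R4 → ℝ) (P Q : List (List G)) (y : R4) :
    evalP g (P ++ Q) y = evalP g P y + evalP g Q y := by simp [evalP]

theorem evalP_map_append (g : G → R4 → ℝ) (P : List (List G)) (m : List G) (y : R4) :
    evalP g (P.map fun n => n ++ m) y = evalP g P y * (m.map fun i => g i y).prod := by
  simp [evalP, Function.comp_def, List.sum_map_mul_right]

theorem evalP_map_cons (g : G → R4 → ℝ) (P : List (List G)) (i : G) (y : R4) :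
    evalP g (P.map fun n => i :: n) y = g i y * evalP g P y := by
  simp [evalP, Function.comp_def, List.sum_map_mul_left]

theorem hp_mon {j : Fin 4} {g : G → R4 → ℝ} {d : G → List (List G)}
    (h : ∀ i, HP j (g i) (evalP g (d i))) (m : List G) :
    HP j (fun y => (m.map fun i => g i y).prod) (evalP g (dMon d m)) := by
  induction m with
  | nil => exact HP.const j 1
  | cons i m ih =>
    simp only [List.map_cons, List.prod_cons]
    refine ((h i).mul ih).congr fun y => ?_
    rw [dMon, evalP_append, evalP_map_append, evalP_map_cons]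

theorem hp_poly {j : Fin 4} {g : G → R4 → ℝ} {d : G → List (List G)}
    (h : ∀ i, HP j (g i) (evalP g (d i))) (P : List (List G)) :
    HP j (evalP g P) (evalP g (dPoly d P)) := by
  induction P with
  | nil => exact HP.const j 0
  | cons m P ih =>
    have e : evalP g (m :: P) = fun y => (m.map fun i => g i y).prod + evalP g P y := by
      funext y; simp [evalP]
    rw [e]
    refine ((hp_mon h m).add ih).congr fun y => ?_
    simp [dPoly, evalP_append]

theorem mixed_poly {g : G → R4 → ℝ} {D : Fin 4 → G → List (List G)}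
    (h : ∀ j i, HP j (g i) (evalP g (D j i))) (P : List (List G)) (α : List (Fin 4)) :
    mixed α (evalP g P) = evalP g (α.foldr (fun j Q => dPoly (D j) Q) P) := by
  induction α with
  | nil => rfl
  | cons j α ih =>
    simp only [mixed, List.foldr_cons] at ih ⊢
    rw [ih, (hp_poly (h j) _).pd_eq]

theorem pr_dPoly [Primcodable G] {D : Fin 4 → G → List (List G)}
    (hD : Primrec fun p : Fin 4 × G => D p.1 p.2) :
    Primrec fun p : Fin 4 × List (List G) => dPoly (D p.1) p.2 := by
  have h1 : Primrec fun p : Fin 4 × List G => dMon (D p.1) p.2 := by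
    have h2 := Primrec.list_rec (f := fun p : Fin 4 × List G => p.2)
      (g := fun _ => ([] : List (List G)))
      (h := fun p (q : G × List G × List (List G)) =>
        (D p.1 q.1).map (fun n => n ++ q.2.1) ++ q.2.2.map (fun n => q.1 :: n))
      Primrec.snd (Primrec.const _) (by
        have h3 : Primrec fun z : (Fin 4 × List G) × G × List G × List (List G) =>
            D z.1.1 z.2.1 :=
          hD.comp (g := fun z : (Fin 4 × List G) × G × List G × List (List G) => (z.1.1, z.2.1))
            (by fun_prop)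
        refine pr_append (pr_map h3 ?_) ?_ <;> fun_prop)
    refine h2.of_eq fun p => ?_
    induction p.2 with
    | nil => rfl
    | cons i m ih => simp only [dMon, ← ih]
  unfold dPoly
  refine pr_flatMap (g := fun (p : Fin 4 × List (List G)) m => dMon (D p.1) m) Primrec.snd ?_
  exact h1.comp (g := fun z : (Fin 4 × List (List G)) × List G => (z.1.1, z.2)) (by fun_prop)

end Poly

variable {A B : Type*} [Primcodable A] [Primcodable B]

/-- A uniformly effective family of smooth functions on `ℝ⁴`. -/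
def Eff (F : A → R4 → ℝ) : Prop :=
  (∀ a, ContDiff ℝ ∞ (F a)) ∧
    CR fun p : A × List (Fin 4) × P4 => mixed p.2.1 (F p.1) (ratPoint p.2.2)

theorem Eff.of_poly {G : Type*} [Primcodable G] {F : A → R4 → ℝ} (hF : ∀ a, ContDiff ℝ ∞ (F a))
    (g : A → G → R4 → ℝ) (D : Fin 4 → G → List (List G)) (P : List (List G))
    (hD : Primrec fun p : Fin 4 × G => D p.1 p.2)
    (hg : CR fun p : (A × P4) × G => g p.1.1 p.2 (ratPoint p.1.2))
    (h : ∀ a j i, HP j (g a i) (evalP (g a) (D j i))) (e : ∀ a y, F a y = evalP (g a) P y) :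
    Eff F := by
  refine ⟨hF, ?_⟩
  have h1 : Primrec fun α : List (Fin 4) => α.foldr (fun j Q => dPoly (D j) Q) P :=
    pr_foldr (h := fun _ j Q => dPoly (D j) Q) Primrec.id (Primrec.const _)
      ((pr_dPoly hD).comp Primrec.snd)
  have h2 := (hg.comp (φ := fun p : ((A × List (Fin 4) × P4) × List G) × G =>
    ((p.1.1.1, p.1.1.2.2), p.2)) (by fun_prop)).list_prod (l := fun p => p.2) Computable.snd
  have h3 := h2.list_sum
    (l := fun p : A × List (Fin 4) × P4 => p.2.1.foldr (fun j Q => dPoly (D j) Q) P)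
    (h1.to_comp.comp (by fun_prop))
  refine h3.congr fun p => ?_
  rw [show F p.1 = evalP (g p.1) P from funext (e p.1), mixed_poly (h p.1)]
  rfl

theorem Eff.congr {F G : A → R4 → ℝ} (h : Eff F) (e : ∀ a y, F a y = G a y) : Eff G := by
  rwa [show G = F from funext fun a => funext fun y => (e a y).symm]

theorem Eff.comp {F : A → R4 → ℝ} (h : Eff F) {φ : B → A} (hφ : Computable φ) :
    Eff fun b => F (φ b) :=
  ⟨fun b => h.1 _, h.2.comp (φ := fun p : B × List (Fin 4) × P4 => (φ p.1, p.2)) (by fun_prop)⟩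

theorem Eff.const {x : A → ℝ} (hx : CR x) : Eff fun a _ => x a :=
  Eff.of_poly (G := Unit) (fun _ => contDiff_const) (fun a _ _ => x a) (fun _ _ => []) [[()]]
    (Primrec.const _) (hx.comp (by fun_prop))
    (fun a j i => HP.const j (x a)) (fun a y => by simp [evalP])

theorem Eff.const_rat (q : ℚ) : Eff fun (_ : A) _ => (q : ℝ) := Eff.const (CR.const_rat q)

def coordQ (j : Fin 4) (y : P4) : Q3 := ![y.1, y.2.1, y.2.2.1, y.2.2.2] j

theorem pr_coordQ (j : Fin 4) : Primrec (coordQ j) := by
  unfold coordQ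
  fin_cases j <;> simp <;> fun_prop

theorem ratPoint_eq (y : P4) (j : Fin 4) : ratPoint y j = rat (coordQ j y) := by
  fin_cases j <;> rfl

theorem Eff.coord (k : Fin 4) : Eff fun (_ : A) y => y k :=
  Eff.of_poly (G := Unit) (fun _ => contDiff_apply ℝ ℝ k) (fun _ _ y => y k)
    (fun j _ => if j = k then [[]] else []) [[()]] (Primrec.dom_finite _)
    ((CR.of_rat (q := fun p : (A × P4) × Unit => coordQ k p.1.2)
      ((pr_coordQ k).to_comp.comp (by fun_prop))).congr fun p => (ratPoint_eq _ _).symm)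
    (fun a j i => (HP.coord (g := fun x => x) (g' := fun _ => 1) hasDerivAt_id' j k).congr
      fun y => by split_ifs <;> simp [evalP])
    (fun a y => by simp [evalP])

theorem Eff.pair_aux {F G H : A → R4 → ℝ} (hF : Eff F) (hG : Eff G)
    (hH : ∀ a, ContDiff ℝ ∞ (H a)) (P : List (List (List (Fin 4) ⊕ List (Fin 4))))
    (e : ∀ a y, H a y =
      evalP (Sum.elim (fun α => mixed α (F a)) (fun α => mixed α (G a))) P y) : Eff H := by
  refine Eff.of_poly hH (fun a => Sum.elim (fun α => mixed α (F a)) (fun α => mixed α (G a)))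
    (fun j => Sum.elim (fun α => [[Sum.inl (j :: α)]]) (fun α => [[Sum.inr (j :: α)]])) P
    (by fun_prop) ?_ ?_ e
  · have := CR.sumElim (s := fun p : (A × P4) × (List (Fin 4) ⊕ List (Fin 4)) => p.2)
      Computable.snd
      (hF.2.comp (φ := fun p : ((A × P4) × (List (Fin 4) ⊕ List (Fin 4))) × List (Fin 4) =>
        (p.1.1.1, p.2, p.1.1.2)) (by fun_prop))
      (hG.2.comp (φ := fun p : ((A × P4) × (List (Fin 4) ⊕ List (Fin 4))) × List (Fin 4) =>
        (p.1.1.1, p.2, p.1.1.2)) (by fun_prop))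
    refine this.congr fun p => ?_
    rcases p with ⟨p, α | α⟩ <;> rfl
  · rintro a j (α | α)
    · exact (hp_pd (contDiff_mixed (hF.1 a) α) j).congr fun y => by simp [evalP, mixed]
    · exact (hp_pd (contDiff_mixed (hG.1 a) α) j).congr fun y => by simp [evalP, mixed]

theorem Eff.add {F G : A → R4 → ℝ} (hF : Eff F) (hG : Eff G) : Eff fun a y => F a y + G a y :=
  hF.pair_aux hG (fun a => (hF.1 a).add (hG.1 a)) [[Sum.inl []], [Sum.inr []]]
    fun a y => by simp [evalP, mixed]

theorem Eff.mul {F G : A → R4 → ℝ} (hF : Eff F) (hG : Eff G) : Eff fun a y => F a y * G a y :=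
  hF.pair_aux hG (fun a => (hF.1 a).mul (hG.1 a)) [[Sum.inl [], Sum.inr []]]
    fun a y => by simp [evalP, mixed]

theorem Eff.neg {F : A → R4 → ℝ} (hF : Eff F) : Eff fun a y => - F a y :=
  ((Eff.const_rat (-1)).mul hF).congr fun a y => by simp

theorem Eff.sub {F G : A → R4 → ℝ} (hF : Eff F) (hG : Eff G) : Eff fun a y => F a y - G a y :=
  (hF.add hG.neg).congr fun a y => by ring

theorem Eff.sum {ι : Type*} (s : Finset ι) {F : ι → A → R4 → ℝ} (h : ∀ i, Eff (F i)) :
    Eff fun a y => ∑ i ∈ s, F i a y := by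
  classical
  induction s using Finset.induction_on with
  | empty => exact (Eff.const_rat 0).congr fun a y => by simp
  | insert i s hi ih => exact ((h i).add ih).congr fun a y => by rw [Finset.sum_insert hi]

theorem Eff.pd {F : A → R4 → ℝ} (hF : Eff F) (j : Fin 4) : Eff fun a => pd j (F a) :=
  ⟨fun a => contDiff_pd (hF.1 a) j,
    (hF.2.comp (φ := fun p : A × List (Fin 4) × P4 => (p.1, p.2.1 ++ [j], p.2.2))
      (by fun_prop)).congr fun p => by simp [mixed]⟩

theorem Eff.inv {F : A → R4 → ℝ} (hF : Eff F) (N : ℕ) (hN : ∀ a y, 1 / ((N : ℝ) + 1) ≤ F a y) :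
    Eff fun a y => (F a y)⁻¹ := by
  have hne : ∀ a y, F a y ≠ 0 := fun a y => (lt_of_lt_of_le (by positivity) (hN a y)).ne'
  refine Eff.of_poly (G := Bool ⊕ List (Fin 4)) (fun a => (hF.1 a).inv (hne a))
    (fun a => Sum.elim (fun b y => bif b then (F a y)⁻¹ else -1) (fun α => mixed α (F a)))
    (fun j => Sum.elim (fun b => bif b then
      [[Sum.inl false, Sum.inl true, Sum.inl true, Sum.inr [j]]] else [])
      (fun α => [[Sum.inr (j :: α)]])) [[Sum.inl true]] (by fun_prop) ?_ ?_
    (fun a y => by simp [evalP])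
  · have h0 : CR fun p : A × P4 => F p.1 (ratPoint p.2) :=
      hF.2.comp (φ := fun p : A × P4 => (p.1, [], p.2)) (by fun_prop)
    have h1 := h0.inv N (fun p => hN _ _)
    have := CR.sumElim (s := fun p : (A × P4) × (Bool ⊕ List (Fin 4)) => p.2)
      Computable.snd
      (CR.cond (c := fun p : ((A × P4) × (Bool ⊕ List (Fin 4))) × Bool => p.2) Computable.snd
        (h1.comp (φ := fun p => p.1.1) (by fun_prop)) (CR.const_rat (-1)))
      (hF.2.comp (φ := fun p : ((A × P4) × (Bool ⊕ List (Fin 4))) × List (Fin 4) =>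
        (p.1.1.1, p.2, p.1.1.2)) (by fun_prop))
    refine this.congr fun p => ?_
    rcases p with ⟨p, (_ | _) | α⟩ <;> simp
  · rintro a j ((_ | _) | α)
    · exact HP.const j (-1)
    · intro y
      have h2 := (hp_pd (hF.1 a) j y).fun_inv (by simpa using hne a y)
      refine h2.congr_deriv ?_
      simp [evalP, mixed]
      field_simp
    · exact (hp_pd (contDiff_mixed (hF.1 a) α) j).congr fun y => by simp [evalP, mixed]

theorem hasDerivAt_ek (k : ℕ) (x : ℝ) :
    HasDerivAt (fun x : ℝ => x⁻¹ ^ k * expNegInvGlue x)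
      (x⁻¹ ^ (k + 2) * expNegInvGlue x - k * (x⁻¹ ^ (k + 1) * expNegInvGlue x)) x := by
  have h := expNegInvGlue.hasDerivAt_polynomial_eval_inv_mul (Polynomial.X ^ k) x
  simp only [Polynomial.eval_pow, Polynomial.eval_X] at h
  convert h using 1
  rcases k with _ | k
  · simp
  · simp only [Polynomial.derivative_X_pow_succ, Polynomial.eval_mul, Polynomial.eval_pow,
      Polynomial.eval_X, Polynomial.eval_sub, Polynomial.eval_C]
    push_cast
    ring

theorem cr_ek : CR fun p : Q3 × ℕ => (rat p.1)⁻¹ ^ p.2 * expNegInvGlue (rat p.1) := by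
  have h0 : CR fun p : Q3 × ℕ => rat (qinv p.1) :=
    CR.of_rat (pr_qinv.to_comp.comp Computable.fst)
  have h1 := CR.cond (c := fun p : Q3 × ℕ => decide (p.1.2.1 < p.1.1)) (by fun_prop)
    ((h0.pow (k := fun p => p.2) Computable.snd).mul h0.neg.exp) (CR.const_rat 0)
  refine h1.congr fun p => ?_
  by_cases h : p.1.2.1 < p.1.1
  · have h2 := (rat_pos_iff p.1).2 h
    simp [h, rat_qinv h2, expNegInvGlue, not_le.2 h2]
  · have h2 : rat p.1 ≤ 0 := not_lt.1 fun h2 => h ((rat_pos_iff p.1).1 h2)
    simp [h, expNegInvGlue.zero_of_nonpos h2]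

theorem Eff.glue (k : Fin 4) (c d : ℚ) :
    Eff fun (_ : A) y => expNegInvGlue (c * y k + d) := by
  obtain ⟨qc, hc⟩ := exists_rat_eq c
  obtain ⟨qd, hd⟩ := exists_rat_eq d
  refine Eff.of_poly (G := Bool ⊕ ℕ)
    (fun _ => expNegInvGlue.contDiff.comp
      ((contDiff_const.mul (contDiff_apply ℝ ℝ k)).add contDiff_const))
    (fun _ => Sum.elim (fun b _ => bif b then (c : ℝ) else -c)
      (fun n y => (c * y k + d)⁻¹ ^ n * expNegInvGlue (c * y k + d)))
    (fun j => Sum.elim (fun _ => []) (fun n => bif decide (j = k) then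
      [Sum.inl true, Sum.inr (n + 2)] :: List.replicate n [Sum.inl false, Sum.inr (n + 1)]
      else [])) [[Sum.inr 0]] (by fun_prop) ?_ ?_ (fun a y => by simp [evalP])
  · have h0 : Primrec fun y : P4 => qadd (qmul qc (coordQ k y)) qd :=
      pr_qadd (pr_qmul (Primrec.const _) (pr_coordQ k)) (Primrec.const _)
    have := CR.sumElim (s := fun p : (A × P4) × (Bool ⊕ ℕ) => p.2)
      Computable.snd
      (CR.cond (c := fun p : ((A × P4) × (Bool ⊕ ℕ)) × Bool => p.2) Computable.snd
        (CR.const_rat c) (CR.const_rat (-c)))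
      (cr_ek.comp (φ := fun p : ((A × P4) × (Bool ⊕ ℕ)) × ℕ =>
        (qadd (qmul qc (coordQ k p.1.1.2)) qd, p.2))
        (co_pair (h0.to_comp.comp (by fun_prop)) Computable.snd))
    refine this.congr fun p => ?_
    rcases p with ⟨p, (_ | _) | n⟩ <;> simp [rat_qadd, rat_qmul, hc, hd, ratPoint_eq]
  · rintro a j (b | n)
    · exact HP.const j (bif b then (c : ℝ) else -c)
    · have h1 : ∀ x : ℝ, HasDerivAt
          (fun x : ℝ => (c * x + d)⁻¹ ^ n * expNegInvGlue (c * x + d))
          (((c * x + d)⁻¹ ^ (n + 2) * expNegInvGlue (c * x + d) -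
            n * ((c * x + d)⁻¹ ^ (n + 1) * expNegInvGlue (c * x + d))) * c) x := by
        intro x
        have h2 : HasDerivAt (fun x : ℝ => (c : ℝ) * x + d) c x := by
          simpa using ((hasDerivAt_id x).const_mul (c : ℝ)).add_const (d : ℝ)
        exact (hasDerivAt_ek n (c * x + d)).comp x h2
      refine (HP.coord h1 j k).congr fun y => ?_
      by_cases e : j = k
      · simp [e, evalP]; ring
      · simp [e, evalP]

theorem pd_congr_nhds {G H : R4 → ℝ} {y : R4} (h : G =ᶠ[𝓝 y] H) (j : Fin 4) :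
    pd j G =ᶠ[𝓝 y] pd j H := by
  filter_upwards [h.eventually_nhds] with z hz
  have hc : Tendsto (fun s : ℝ => z + Pi.single j s) (𝓝 0) (𝓝 z) := by
    have := (hasDerivAt_line j z 0).continuousAt
    simpa [ContinuousAt] using this
  exact Filter.EventuallyEq.deriv_eq (hc.eventually hz)

theorem mixed_congr_nhds {G H : R4 → ℝ} {y : R4} (h : G =ᶠ[𝓝 y] H) (α : List (Fin 4)) :
    mixed α G =ᶠ[𝓝 y] mixed α H := by
  induction α with
  | nil => exact h
  | cons j α ih => exact pd_congr_nhds ih j

theorem pd_translate (G : R4 → ℝ) (v : R4) (j : Fin 4) :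
    pd j (fun y => G (y + v)) = fun y => pd j G (y + v) := by
  funext y
  simp only [pd, add_right_comm y _ v]

theorem mixed_translate (G : R4 → ℝ) (v : R4) (α : List (Fin 4)) :
    mixed α (fun y => G (y + v)) = fun y => mixed α G (y + v) := by
  induction α with
  | nil => rfl
  | cons j α ih =>
    simp only [mixed, List.foldr_cons] at ih ⊢
    rw [ih, pd_translate]

def updQ (j : Fin 4) (y : P4) : P4 :=
  ![(qfract y.1, y.2), (y.1, qfract y.2.1, y.2.2), (y.1, y.2.1, qfract y.2.2.1, y.2.2.2),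
    (y.1, y.2.1, y.2.2.1, qfract y.2.2.2)] j

theorem pr_updQ (j : Fin 4) : Primrec (updQ j) := by
  have h := pr_qfract
  unfold updQ
  fin_cases j <;> simp <;> fun_prop

theorem ratPoint_updQ (j : Fin 4) (y : P4) :
    ratPoint (updQ j y) = ratPoint y + Pi.single j (-(⌊ratPoint y j⌋ : ℝ)) := by
  funext k
  fin_cases j <;> fin_cases k <;> simp [ratPoint, updQ, rat_qfract, Int.fract, sub_eq_add_neg]

theorem Eff.periodize {F : A → R4 → ℝ} (hF : Eff F) (j : Fin 4) {δ : ℝ} (hδ : 0 < δ)
    (h0 : ∀ a y, y j ≤ 0 ∨ 1 - δ ≤ y j → F a y = 0) :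
    Eff fun a y => F a (Function.update y j (Int.fract (y j))) := by
  have key : ∀ a (y₀ : R4), (fun y : R4 => F a (Function.update y j (Int.fract (y j)))) =ᶠ[𝓝 y₀]
      fun y => F a (y + Pi.single j (-(⌊y₀ j⌋ : ℝ))) := by
    intro a y₀
    have h1 : ∀ᶠ y : R4 in 𝓝 y₀, y j ∈ Set.Ioo ((⌊y₀ j⌋ : ℝ) - min δ 1) (⌊y₀ j⌋ + 1) := by
      refine (continuous_apply j).continuousAt.eventually (Ioo_mem_nhds ?_ (Int.lt_floor_add_one _))
      have := Int.floor_le (y₀ j)
      have : 0 < min δ 1 := lt_min hδ one_pos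
      linarith
    filter_upwards [h1] with y hy
    by_cases h2 : (⌊y₀ j⌋ : ℝ) ≤ y j
    · have h3 : ⌊y j⌋ = ⌊y₀ j⌋ := Int.floor_eq_iff.2 ⟨h2, hy.2⟩
      congr 1
      funext k
      by_cases e : k = j
      · subst e; simp [Int.fract, h3, sub_eq_add_neg]
      · simp [e]
    · have h4 := min_le_left δ 1
      have h5 := min_le_right δ 1
      have h3 : ⌊y j⌋ = ⌊y₀ j⌋ - 1 := by
        rw [Int.floor_eq_iff]; push_cast
        constructor <;> linarith [hy.1, not_le.1 h2]
      rw [h0, h0]
      · left; simp; linarith [not_le.1 h2]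
      · right; simp only [Function.update_self, Int.fract, h3]; push_cast; linarith [hy.1]
  refine ⟨fun a => contDiff_iff_contDiffAt.2 fun y₀ => ?_, ?_⟩
  · refine ContDiffAt.congr_of_eventuallyEq ?_ (key a y₀)
    exact ((hF.1 a).comp (contDiff_id.add contDiff_const)).contDiffAt
  · refine (hF.2.comp (φ := fun p : A × List (Fin 4) × P4 => (p.1, p.2.1, updQ j p.2.2))
      (co_pair Computable.fst (co_pair (by fun_prop)
        ((pr_updQ j).to_comp.comp (by fun_prop))))).congr fun p => ?_
    rw [(mixed_congr_nhds (key p.1 _) p.2.1).eq_of_nhds, mixed_translate, ratPoint_updQ]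

end Vale.Agent.P113
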