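import Vale.Agent.P113.Unique
import Vale.Agent.P113.Eff
import Mathlib.Analysis.ODE.ExistUnique
import Mathlib.Analysis.Calculus.ContDiff.RCLike

/-! Passing from periodic functions on `ℝ⁴` to fields on the torus; manufactured solutions. -/

open Set Filter Topology MeasureTheory
open scoped ContDiff

namespace Vale.Agent.P113

/-- Invariance under integer translations of the space variables. -/
def Per (U : R4 → ℝ) : Prop :=
  ∀ k : Fin 4 → ℤ, k 0 = 0 → ∀ y : R4, U (y + fun j => (k j : ℝ)) = U y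

theorem Per.pd {U : R4 → ℝ} (h : Per U) (j : Fin 4) : Per (pd j U) := fun k hk y => by
  have h1 := congrFun (pd_translate U (fun j => (k j : ℝ)) j) y
  rw [← h1]
  congr 1
  exact funext fun z => h k hk z

theorem proj_surj : Function.Surjective proj := fun x => by
  choose s hs using fun j => (QuotientAddGroup.mk_surjective (x j) : ∃ s : ℝ, (s : UnitAddCircle) = x j)
  exact ⟨s, funext hs⟩

noncomputable def rep (x : T3) : Fin 3 → ℝ := Function.surjInv proj_surj x

theorem proj_rep (x : T3) : proj (rep x) = x := Function.surjInv_eq proj_surj x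

theorem exists_int_of_proj_eq {a b : Fin 3 → ℝ} (h : proj a = proj b) :
    ∃ k : Fin 3 → ℤ, a = b + fun j => (k j : ℝ) := by
  have : ∀ j, ∃ k : ℤ, a j = b j + k := by
    intro j
    have h1 : ((a j - b j : ℝ) : UnitAddCircle) = 0 := by
      rw [AddCircle.coe_sub, sub_eq_zero]; exact congrFun h j
    obtain ⟨k, hk⟩ := (AddCircle.coe_eq_zero_iff (1 : ℝ)).1 h1
    exact ⟨k, by simp at hk; linarith⟩
  choose k hk using this
  exact ⟨k, funext hk⟩

theorem proj_add_int (b : Fin 3 → ℝ) (k : Fin 3 → ℤ) : proj (b + fun j => (k j : ℝ)) = proj b := by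
  funext j
  simp only [proj, Pi.add_apply, AddCircle.coe_add]
  have : (((k j : ℤ) : ℝ) : UnitAddCircle) = 0 :=
    (AddCircle.coe_eq_zero_iff (1 : ℝ)).2 ⟨k j, by simp⟩
  rw [this, add_zero]

noncomputable def desc (U : R4 → ℝ) (t : ℝ) (x : T3) : ℝ := U (Fin.cons t (rep x))

theorem desc_proj {U : R4 → ℝ} (hU : Per U) (t : ℝ) (v : Fin 3 → ℝ) :
    desc U t (proj v) = U (Fin.cons t v) := by
  obtain ⟨k, hk⟩ := exists_int_of_proj_eq (proj_rep (proj v))
  rw [desc, hk, ← hU (Fin.cons 0 k) rfl (Fin.cons t v)]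
  congr 1
  funext j
  refine Fin.cases ?_ (fun i => ?_) j <;> simp

theorem lift_desc {U : R4 → ℝ} (hU : Per U) : lift (desc U) = U := by
  funext y
  rw [lift, desc_proj hU]
  congr 1
  exact Fin.cons_self_tail y

theorem hd_desc {U U' : R4 → ℝ} (hU : Per U) {j : Fin 3} (h : HP j.succ U U') (t : ℝ) :
    HD j (desc U t) (desc U' t) := by
  intro x
  refine (h (Fin.cons t (rep x))).congr_of_eventuallyEq (Eventually.of_forall fun s => ?_)
  beta_reduce
  have : shift x j s = proj (rep x + Pi.single j s) := by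
    conv_lhs => rw [← proj_rep x]
    funext i
    by_cases e : i = j
    · subst e; simp [shift, proj]
    · simp [shift, proj, e]
  rw [this, desc_proj hU]
  congr 1
  funext i
  refine Fin.cases ?_ (fun i => ?_) i
  · simp
  · by_cases e : i = j
    · subst e; simp
    · simp [e]

theorem hasDerivAt_desc_time {U U' : R4 → ℝ} (h : HP 0 U U') (t : ℝ) (x : T3) :
    HasDerivAt (fun s => desc U s x) (desc U' t x) t := by
  have h1 : HasDerivAt (fun s : ℝ => U (Fin.cons t (rep x) + Pi.single 0 s))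
      (U' (Fin.cons t (rep x))) (t - t) := by simpa using h (Fin.cons t (rep x))
  refine (h1.comp_sub_const t t).congr_of_eventuallyEq (Eventually.of_forall fun s => ?_)
  simp only [desc]
  congr 1
  funext i
  refine Fin.cases ?_ (fun i => ?_) i <;> simp

theorem continuous_cons : Continuous fun z : ℝ × (Fin 3 → ℝ) => (Fin.cons z.1 z.2 : R4) :=
  continuous_pi fun i => by
    refine Fin.cases ?_ (fun i => ?_) i
    · simpa using continuous_fst
    · simp only [Fin.cons_succ]
      exact (continuous_apply i).comp continuous_snd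

theorem continuous_desc {U : R4 → ℝ} (hU : Per U) (hc : Continuous U) :
    Continuous fun z : ℝ × T3 => desc U z.1 z.2 := by
  have hq : IsOpenQuotientMap (Prod.map id proj : ℝ × (Fin 3 → ℝ) → ℝ × T3) :=
    IsOpenQuotientMap.id.prodMap
      (IsOpenQuotientMap.piMap fun _ => QuotientAddGroup.isOpenQuotientMap_mk)
  rw [← hq.continuous_comp_iff]
  have : (fun z : ℝ × T3 => desc U z.1 z.2) ∘ Prod.map id proj =
      fun z : ℝ × (Fin 3 → ℝ) => U (Fin.cons z.1 z.2) := funext fun z => desc_proj hU _ _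
  rw [this]
  exact hc.comp continuous_cons

theorem contOn_desc {U : R4 → ℝ} (hU : Per U) (hc : ContDiff ℝ ∞ U) (T : ℝ) :
    ContOn T (desc U) := (continuous_desc hU hc.continuous).continuousOn

/-- The force that makes `U` a solution with zero pressure. -/
noncomputable def force (ν : ℝ) (U : Fin 3 → R4 → ℝ) (i : Fin 3) (y : R4) : ℝ :=
  pd 0 (U i) y + ∑ j, U j y * pd j.succ (U i) y - ν * ∑ j : Fin 3, pd j.succ (pd j.succ (U i)) y

theorem per_force (ν : ℝ) {U : Fin 3 → R4 → ℝ} (h : ∀ i, Per (U i)) (i : Fin 3) :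
    Per (force ν U i) := fun k hk y => by
  simp only [force, (h _) k hk y, ((h _).pd _) k hk y, (((h _).pd _).pd _) k hk y]

theorem manufactured (ν : ℝ) {U : Fin 3 → R4 → ℝ} (hs : ∀ i, ContDiff ℝ ∞ (U i))
    (hp : ∀ i, Per (U i)) (hdiv : ∀ y, ∑ j : Fin 3, pd j.succ (U j) y = 0)
    (h0 : ∀ i y, y 0 = 0 → U i y = 0) {T : ℝ} (hT : 0 < T) :
    IsClassical ν (fun t x i => desc (force ν U i) t x) T (fun t x i => desc (U i) t x)
      (fun _ _ => 0) := by
  have d1 : ∀ t i (j : Fin 3), HD j (fun x => desc (U i) t x) (desc (pd j.succ (U i)) t) :=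
    fun t i j => hd_desc (hp i) (hp_pd (hs i) _) t
  have d2 : ∀ t i (j k : Fin 3), HD k (desc (pd j.succ (U i)) t)
      (desc (pd k.succ (pd j.succ (U i))) t) :=
    fun t i j k => hd_desc ((hp i).pd _) (hp_pd (contDiff_pd (hs i) _) _) t
  have d0 : ∀ j, HD j (fun _ => (0 : ℝ)) (fun _ => 0) := fun j x => hasDerivAt_const _ _
  have dtt : ∀ i, ∀ t ∈ Icc 0 T, ∀ x,
      dt T (fun s y => desc (U i) s y) t x = desc (pd 0 (U i)) t x := fun i t ht x =>
    (hasDerivAt_desc_time (hp_pd (hs i) 0) t x).hasDerivWithinAt.derivWithin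
      (uniqueDiffOn_Icc hT t ht)
  refine
    { diff_t := fun i x t _ =>
        (hasDerivAt_desc_time (hp_pd (hs i) 0) t x).differentiableAt.differentiableWithinAt
      diff_x := fun t _ i j => (d1 t i j).hasDx
      diff_xx := fun t _ i j k => by rw [(d1 t i j).dx_eq]; exact (d2 t i j k).hasDx
      diff_p := fun t _ j => (d0 j).hasDx
      cont_u := fun i => contOn_desc (hp i) (hs i) T
      cont_ut := fun i => (contOn_desc ((hp i).pd 0) (contDiff_pd (hs i) 0) T).congr
        fun z hz => dtt i z.1 hz.1 z.2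
      cont_ux := fun i j => by
        simp only [(d1 _ i j).dx_eq]; exact contOn_desc ((hp i).pd _) (contDiff_pd (hs i) _) T
      cont_uxx := fun i j k => by
        simp only [(d1 _ i j).dx_eq, (d2 _ i j k).dx_eq]
        exact contOn_desc (((hp i).pd _).pd _) (contDiff_pd (contDiff_pd (hs i) _) _) T
      cont_p := continuousOn_const
      cont_px := fun j => by simp only [(d0 j).dx_eq]; exact continuousOn_const
      mean_p := fun t _ => by simp
      momentum := fun t ht x i => ?_
      div_free := fun t _ x => by simp only [(d1 _ _ _).dx_eq]; exact hdiv _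
      at_rest := fun x => funext fun i => h0 i _ rfl }
  simp only [dtt i t ht x, (d1 _ _ _).dx_eq, (d2 _ _ _ _).dx_eq, (d0 _).dx_eq]
  simp only [desc, force]
  ring

theorem traj_unique {U : Fin 3 → R4 → ℝ} (hs : ∀ i, ContDiff ℝ ∞ (U i)) {X Y : ℝ → Fin 3 → ℝ}
    (hX : ∀ t, 0 ≤ t → HasDerivWithinAt X (fun i => U i (Fin.cons t (X t))) (Ici 0) t)
    (hY : ∀ t, 0 ≤ t → HasDerivWithinAt Y (fun i => U i (Fin.cons t (Y t))) (Ici 0) t)
    (h0 : X 0 = Y 0) {T : ℝ} (hT : 0 ≤ T) : X T = Y T := by
  have cX : ContinuousOn X (Icc 0 T) := fun t ht =>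
    (hX t ht.1).continuousWithinAt.mono Icc_subset_Ici_self
  have cY : ContinuousOn Y (Icc 0 T) := fun t ht =>
    (hY t ht.1).continuousWithinAt.mono Icc_subset_Ici_self
  have kX : IsCompact ((fun t => (Fin.cons t (X t) : R4)) '' Icc 0 T) :=
    isCompact_Icc.image_of_continuousOn
      (continuous_cons.comp_continuousOn (continuousOn_id.prodMk cX))
  have kY : IsCompact ((fun t => (Fin.cons t (Y t) : R4)) '' Icc 0 T) :=
    isCompact_Icc.image_of_continuousOn
      (continuous_cons.comp_continuousOn (continuousOn_id.prodMk cY))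
  have hV : ContDiff ℝ 1 fun y : R4 => fun i => U i y :=
    contDiff_pi.2 fun i => (hs i).of_le (by simp)
  obtain ⟨K, hK⟩ := (hV.locallyLipschitz.locallyLipschitzOn).exists_lipschitzOnWith_of_compact
    (kX.union kY)
  have hl : ∀ t : ℝ, LipschitzWith 1 fun x : Fin 3 → ℝ => (Fin.cons t x : R4) := by
    intro t
    refine LipschitzWith.of_dist_le_mul fun x y => ?_
    simp only [NNReal.coe_one, one_mul]
    refine (dist_pi_le_iff dist_nonneg).2 fun i => ?_
    refine Fin.cases ?_ (fun i => ?_) i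
    · simp
    · simpa using dist_le_pi_dist x y i
  refine ODE_solution_unique_of_mem_Icc_right (K := K * 1)
    (v := fun t x i => U i (Fin.cons t x))
    (s := fun t => (fun x : Fin 3 → ℝ => (Fin.cons t x : R4)) ⁻¹'
      (((fun t => (Fin.cons t (X t) : R4)) '' Icc 0 T) ∪
        ((fun t => (Fin.cons t (Y t) : R4)) '' Icc 0 T)))
    (fun t _ => hK.comp (hl t).lipschitzOnWith (mapsTo_preimage _ _)) cX
    (fun t ht => (hX t ht.1).mono (Ici_subset_Ici.2 ht.1))
    (fun t ht => Or.inl ⟨t, Ico_subset_Icc_self ht, rfl⟩) cY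
    (fun t ht => (hY t ht.1).mono (Ici_subset_Ici.2 ht.1))
    (fun t ht => Or.inr ⟨t, Ico_subset_Icc_self ht, rfl⟩) h0 ⟨hT, le_rfl⟩

end Vale.Agent.P113
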