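import Vale.Agent.P113.Nice
import Vale.Agent.P113.Torus

/-! The divergence-free periodic field and the path of one simulation step. -/

open Set Filter Topology
open scoped ContDiff

namespace Vale.Agent.P113

theorem exists_heights {ρ : Type} [Fintype ρ] [DecidableEq ρ] (halt : ρ → Prop) :
    ∃ (ζ : ρ → ℚ) (φ : ρ → ℝ → ℝ), (∀ r, S1 3 (φ r)) ∧ (∀ r, ZPer (φ r)) ∧
      (∀ r s, φ s (1 / 4 + ζ r) = 0) ∧
      (∀ r s, deriv (φ s) (1 / 4 + ζ r) = if s = r then 1 else 0) ∧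
      (∀ r, (0 : ℝ) ≤ ζ r) ∧ (∀ r, (ζ r : ℝ) ≤ 1 / 2) ∧ ∀ r, halt r ↔ (1 / 4 : ℝ) < ζ r := by
  classical
  set N := Fintype.card ρ with hN
  let e := Fintype.equivFin ρ
  let m : ρ → ℕ := fun r => (e r).val + 1 + if halt r then N else 0
  have hlt : ∀ r, (e r).val < N := fun r => (e r).isLt
  have minj : Function.Injective m := by
    intro r s h
    have h1 := hlt r
    have h2 := hlt s
    refine e.injective (Fin.ext ?_)
    simp only [m] at h
    split_ifs at h <;> omega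
  have hNpos : ∀ r : ρ, (0 : ℝ) < N := fun r => by
    have := hlt r
    exact_mod_cast (show 0 < N by omega)
  have hζ : ∀ r, (((m r : ℚ) / (4 * N) : ℚ) : ℝ) = (m r : ℝ) / (4 * N) := fun r => by
    push_cast; rfl
  have hb1 : ∀ r, (0 : ℝ) ≤ (((m r : ℚ) / (4 * N) : ℚ) : ℝ) := fun r => by
    rw [hζ]; positivity
  have hb2 : ∀ r, (((m r : ℚ) / (4 * N) : ℚ) : ℝ) ≤ 1 / 2 := fun r => by
    have h1 : m r ≤ 2 * N := by
      have := hlt r
      simp only [m]; split_ifs <;> omega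
    have h2 : (m r : ℝ) ≤ 2 * N := by exact_mod_cast h1
    rw [hζ, div_le_iff₀ (by linarith [hNpos r])]
    linarith
  let g : ρ → ℝ → ℝ := fun s z => (z + ((-(1 / 4 + (m s : ℚ) / (4 * N)) : ℚ) : ℝ)) *
    bump (((4 * N : ℚ) : ℝ) * z + ((-(N + m s : ℚ) : ℚ) : ℝ))
  have hg : ∀ s, E1 (g s) := fun s => (E1.id.add (E1.const _)).mul (E1.bump.affine _ _)
  have hev : ∀ r s, perz (g s) =ᶠ[𝓝 (1 / 4 + (((m r : ℚ) / (4 * N) : ℚ) : ℝ))] g s :=
    fun r s => perz_eventuallyEq _ (by linarith [hb1 r]) (by linarith [hb2 r])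
  have hzero : ∀ r s, s ≠ r → g s =ᶠ[𝓝 (1 / 4 + (((m r : ℚ) / (4 * N) : ℚ) : ℝ))] fun _ => 0 := by
    intro r s hne
    have hc : ContinuousAt (fun z : ℝ => 4 * (N : ℝ) * z - N - m r)
        (1 / 4 + (((m r : ℚ) / (4 * N) : ℚ) : ℝ)) := by fun_prop
    have hv : 4 * (N : ℝ) * (1 / 4 + (((m r : ℚ) / (4 * N) : ℚ) : ℝ)) - N - m r = 0 := by
      rw [hζ]; have := (hNpos r).ne'; field_simp; ring
    have hm : Icc (-1 / 8 : ℝ) (1 / 2) ∈
        𝓝 (4 * (N : ℝ) * (1 / 4 + (((m r : ℚ) / (4 * N) : ℚ) : ℝ)) - N - m r) := by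
      rw [hv]; exact Icc_mem_nhds (by norm_num) (by norm_num)
    filter_upwards [hc.eventually hm] with z hz
    have := bump_int_add (m := m r) (n := m s) (fun h => hne (minj h).symm) hz.1 hz.2
    simp only [g]
    rw [show ((4 * N : ℚ) : ℝ) * z + ((-(N + m s : ℚ) : ℚ) : ℝ) =
      (m r : ℝ) - m s + (4 * (N : ℝ) * z - N - m r) by push_cast; ring, this, mul_zero]
  refine ⟨fun r => (m r : ℚ) / (4 * N), fun s => perz (g s), fun s => ((hg s).s1 3).perz,
    fun s => zper_perz _, fun r s => ?_, fun r s => ?_, hb1, hb2, fun r => ?_⟩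
  · refine ((hev r s).eq_of_nhds).trans ?_
    by_cases h : s = r
    · subst h; simp only [g]; push_cast; ring
    · exact (hzero r s h).eq_of_nhds
  · rw [(hev r s).deriv_eq]
    split_ifs with h
    · subst h
      have h1 := ((E1.bump.affine (4 * N) (-(N + m s : ℚ))).s1 0).hasDerivAt
        (1 / 4 + (((m s : ℚ) / (4 * N) : ℚ) : ℝ))
      have h2 := (((hasDerivAt_id' (1 / 4 + (((m s : ℚ) / (4 * N) : ℚ) : ℝ))).add_const
        ((-(1 / 4 + (m s : ℚ) / (4 * N)) : ℚ) : ℝ)).fun_mul h1).deriv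
      simp only [g]
      rw [h2, bump_one]
      · push_cast; ring
      · push_cast; have := (hNpos s).ne'; field_simp; linarith
      · push_cast; have := (hNpos s).ne'; field_simp; linarith
    · rw [(hzero r s h).deriv_eq, deriv_const]
  · rw [hζ, lt_div_iff₀ (by linarith [hNpos r])]
    have := hlt r
    constructor
    · intro h
      have h1 : N < m r := by simp only [m, h, if_true]; omega
      have h2 : (N : ℝ) < m r := by exact_mod_cast h1
      linarith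
    · intro h
      by_contra hc
      have h1 : m r ≤ N := by simp only [m, hc, if_false]; omega
      have h2 : (m r : ℝ) ≤ N := by exact_mod_cast h1
      linarith

noncomputable def th1 : ℝ → ℝ := stp 8 (-1)
noncomputable def th2 : ℝ → ℝ := stp 8 (-3)
noncomputable def th3 : ℝ → ℝ := stp 8 (-5)

noncomputable def cA (α : ℚ) (τ : ℝ) : ℝ :=
  deriv th2 τ * ((α - 1 : ℚ) : ℝ) * (1 + th2 τ * ((α - 1 : ℚ) : ℝ))⁻¹

noncomputable def cB (α β : ℚ) (τ : ℝ) : ℝ := deriv th2 τ * β - cA α τ * (th2 τ * β)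

theorem den_lower {α : ℚ} (τ : ℝ) : min 1 (α : ℝ) ≤ 1 + th2 τ * ((α - 1 : ℚ) : ℝ) := by
  have h0 : 0 ≤ th2 τ := stp_nonneg _ _ _
  have h1 : th2 τ ≤ 1 := stp_le_one _ _ _
  have h2 := min_le_left 1 (α : ℝ)
  have h3 := min_le_right 1 (α : ℝ)
  push_cast
  nlinarith

theorem s1_cA {α : ℚ} (h : 0 < α) : S1 0 (cA α) := by
  have h1 : E1 fun τ => (1 + th2 τ * ((α - 1 : ℚ) : ℝ))⁻¹ :=
    (((E1.const 1).add ((E1.stp 8 (-3)).mul (E1.const (α - 1)))).congr
      fun x => by simp [th2]).inv (m := min 1 (α : ℝ)) (lt_min one_pos (by exact_mod_cast h))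
      den_lower
  exact (((E1.stp 8 (-3)).s1 0).deriv.mul (S1.const 0 _)).mul (h1.s1 0)

theorem s1_cB {α : ℚ} (h : 0 < α) (β : ℚ) : S1 0 (cB α β) :=
  (((E1.stp 8 (-3)).s1 0).deriv.mul (S1.const 0 _)).sub
    ((s1_cA h).mul (((E1.stp 8 (-3)).s1 0).mul (S1.const 0 _)))

theorem cA_zero {α : ℚ} {τ : ℝ} (h : deriv th2 τ = 0) : cA α τ = 0 := by simp [cA, h]

theorem cB_zero {α β : ℚ} {τ : ℝ} (h : deriv th2 τ = 0) : cB α β τ = 0 := by
  simp [cB, cA_zero h, h]

theorem cAB {α : ℚ} (h : 0 < α) (β : ℚ) (τ x : ℝ) :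
    cA α τ * (x + th2 τ * ((α - 1) * x + β)) + cB α β τ = deriv th2 τ * ((α - 1) * x + β) := by
  have h1 : (1 + th2 τ * ((α - 1 : ℚ) : ℝ)) ≠ 0 :=
    (lt_of_lt_of_le (lt_min one_pos (by exact_mod_cast h)) (den_lower τ)).ne'
  have h2 := inv_mul_cancel₀ h1
  simp only [cB, cA]
  push_cast at h2 ⊢
  linear_combination (deriv th2 τ * (α - 1) * x) * h2

theorem dth1_zero {τ : ℝ} (h : τ ≤ 1 / 8 ∨ 1 / 4 ≤ τ) : deriv th1 τ = 0 :=
  deriv_stp_zero (by push_cast; rcases h with h | h <;> [left; right] <;> linarith)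

theorem dth2_zero {τ : ℝ} (h : τ ≤ 3 / 8 ∨ 1 / 2 ≤ τ) : deriv th2 τ = 0 :=
  deriv_stp_zero (by push_cast; rcases h with h | h <;> [left; right] <;> linarith)

theorem dth3_zero {τ : ℝ} (h : τ ≤ 5 / 8 ∨ 3 / 4 ≤ τ) : deriv th3 τ = 0 :=
  deriv_stp_zero (by push_cast; rcases h with h | h <;> [left; right] <;> linarith)

theorem th1_zero {τ : ℝ} (h : τ ≤ 1 / 8) : th1 τ = 0 := stp_zero (by push_cast; linarith)
theorem th2_zero {τ : ℝ} (h : τ ≤ 3 / 8) : th2 τ = 0 := stp_zero (by push_cast; linarith)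
theorem th3_zero {τ : ℝ} (h : τ ≤ 5 / 8) : th3 τ = 0 := stp_zero (by push_cast; linarith)
theorem th1_one {τ : ℝ} (h : 1 / 4 ≤ τ) : th1 τ = 1 := stp_one (by push_cast; linarith)
theorem th2_one {τ : ℝ} (h : 1 / 2 ≤ τ) : th2 τ = 1 := stp_one (by push_cast; linarith)
theorem th3_one {τ : ℝ} (h : 3 / 4 ≤ τ) : th3 τ = 1 := stp_one (by push_cast; linarith)

noncomputable def idp : ℝ → ℝ := perz fun x => x

theorem s1_idp (j : Fin 4) : S1 j idp := (E1.id.s1 j).perz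

/-- All the pieces of the periodic field. -/
structure Parts extends Geo where
  dec : DecidableEq ρ
  ζ : ρ → ℚ
  φ : ρ → ℝ → ℝ
  h : ℝ → ℝ → ℝ
  h' : ℝ → ℝ → ℝ
  φ_s1 : ∀ r, S1 3 (φ r)
  φ_per : ∀ r, ZPer (φ r)
  φ_zero : ∀ r s, φ s (1 / 4 + ζ r) = 0
  φ_deriv : ∀ r s, deriv (φ s) (1 / 4 + ζ r) = if s = r then 1 else 0
  ζ_nonneg : ∀ r, (0 : ℝ) ≤ ζ r
  ζ_le : ∀ r, (ζ r : ℝ) ≤ 1 / 2
  ζ_halt : ∀ r, halt r ↔ (1 / 4 : ℝ) < ζ r
  h_good : Good h
  h'_good : Good h'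
  h_eq : ∀ c, h (px c) (py c) = ζ (rd c)
  h'_eq : ∀ c, h' (px (F c)) (py (F c)) = ζ (rd c)

theorem exists_parts : Nonempty Parts := by
  classical
  obtain ⟨G⟩ := exists_geo
  let _ := G.fin
  obtain ⟨ζ, φ, h1, h2, h3, h4, h5, h6, h7⟩ := exists_heights G.halt
  obtain ⟨h, k1, k2⟩ := G.up ζ
  obtain ⟨h', k3, k4⟩ := G.down ζ
  exact ⟨{ G with
    dec := inferInstance, ζ := ζ, φ := φ, h := h, h' := h', φ_s1 := h1, φ_per := h2,
    φ_zero := h3, φ_deriv := h4, ζ_nonneg := h5, ζ_le := h6, ζ_halt := h7, h_good := k1,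
    h'_good := k3, h_eq := k2, h'_eq := k4 }⟩

namespace Parts
variable (P : Parts)

instance instFin : Fintype P.ρ := P.fin
instance instDec : DecidableEq P.ρ := P.dec

noncomputable def W0 (τ x z : ℝ) : ℝ :=
  ∑ r, (cA (P.ax r) τ * idp x + cB (P.ax r) (P.bx r) τ) * deriv (P.φ r) z

noncomputable def W1 (τ y z : ℝ) : ℝ :=
  ∑ r, (cA (P.ay r) τ * idp y + cB (P.ay r) (P.by' r) τ) * deriv (P.φ r) z

noncomputable def W2 (τ x y z : ℝ) : ℝ :=
  deriv th1 τ * P.h x y - deriv th3 τ * P.h' x y -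
    ∑ r, (cA (P.ax r) τ * deriv idp x + cA (P.ay r) τ * deriv idp y) * P.φ r z

/-- The field of one step, at local time `τ`. -/
noncomputable def W (τ : ℝ) (v : Fin 3 → ℝ) : Fin 3 → ℝ :=
  ![P.W0 τ (v 0) (v 2), P.W1 τ (v 1) (v 2), P.W2 τ (v 0) (v 1) (v 2)]

theorem W_zero {τ : ℝ} (h : τ ≤ 1 / 8 ∨ 3 / 4 ≤ τ) (v : Fin 3 → ℝ) : P.W τ v = 0 := by
  have h1 : deriv th1 τ = 0 := dth1_zero (by rcases h with h | h <;> [left; right] <;> linarith)
  have h2 : deriv th2 τ = 0 := dth2_zero (by rcases h with h | h <;> [left; right] <;> linarith)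
  have h3 : deriv th3 τ = 0 := dth3_zero (by rcases h with h | h <;> [left; right] <;> linarith)
  funext i
  fin_cases i <;> simp [W, W0, W1, W2, h1, h3, cA_zero h2, cB_zero h2]

/-- The path followed during one step. -/
noncomputable def path (c : P.C) (τ : ℝ) : Fin 3 → ℝ :=
  ![P.px c + th2 τ * ((P.ax (P.rd c) - 1) * P.px c + P.bx (P.rd c)),
    P.py c + th2 τ * ((P.ay (P.rd c) - 1) * P.py c + P.by' (P.rd c)),
    1 / 4 + P.ζ (P.rd c) * (th1 τ - th3 τ)]

noncomputable def start (c : P.C) : Fin 3 → ℝ := ![P.px c, P.py c, 1 / 4]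

theorem path_early (c : P.C) {τ : ℝ} (h : τ ≤ 1 / 8) : P.path c τ = P.start c := by
  simp [path, start, th1_zero h, th2_zero (show τ ≤ 3 / 8 by linarith),
    th3_zero (show τ ≤ 5 / 8 by linarith)]

theorem path_late (c : P.C) {τ : ℝ} (h : 3 / 4 ≤ τ) : P.path c τ = P.start (P.F c) := by
  simp only [path, start, th3_one h, th2_one (show 1 / 2 ≤ τ by linarith),
    th1_one (show 1 / 4 ≤ τ by linarith), P.px_F, P.py_F]
  congr 1
  · ring
  congr 1
  · ring
  · simp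

theorem convex_mem {a b t : ℝ} (ha : a ∈ Icc (1 / 4 : ℝ) (3 / 4)) (hb : b ∈ Icc (1 / 4 : ℝ) (3 / 4))
    (h0 : 0 ≤ t) (h1 : t ≤ 1) : idp (a + t * (b - a)) = a + t * (b - a) :=
  perz_eq _ (by nlinarith [ha.1, hb.1]) (by nlinarith [ha.2, hb.2])

theorem hasDerivAt_path (c : P.C) (τ : ℝ) : HasDerivAt (P.path c) (P.W τ (P.path c τ)) τ := by
  have t0 : 0 ≤ th2 τ := stp_nonneg _ _ _
  have t1 : th2 τ ≤ 1 := stp_le_one _ _ _
  have hx : idp (P.path c τ 0) = P.path c τ 0 := by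
    have := convex_mem (P.px_mem c) (P.px_mem (P.F c)) t0 t1
    rw [P.px_F] at this
    convert this using 2 <;> simp only [path, Matrix.cons_val_zero] <;> ring
  have hy : idp (P.path c τ 1) = P.path c τ 1 := by
    have := convex_mem (P.py_mem c) (P.py_mem (P.F c)) t0 t1
    rw [P.py_F] at this
    convert this using 2 <;> simp only [path, Matrix.cons_val_one, Matrix.cons_val_zero] <;> ring
  have hz : deriv th2 τ = 0 ∨ P.path c τ 2 = 1 / 4 + P.ζ (P.rd c) := by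
    by_cases h1 : τ ≤ 3 / 8
    · exact Or.inl (dth2_zero (Or.inl h1))
    by_cases h2 : 1 / 2 ≤ τ
    · exact Or.inl (dth2_zero (Or.inr h2))
    right
    simp [path, th1_one (show 1 / 4 ≤ τ by linarith), th3_zero (show τ ≤ 5 / 8 by linarith)]
  have e0 : P.W0 τ (P.path c τ 0) (P.path c τ 2) =
      deriv th2 τ * ((P.ax (P.rd c) - 1) * P.px c + P.bx (P.rd c)) := by
    rcases hz with hz | hz
    · simp [W0, cA_zero hz, cB_zero hz, hz]
    · simp only [W0, hz, P.φ_deriv, hx, mul_ite, mul_one, mul_zero, Finset.sum_ite_eq',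
        Finset.mem_univ, if_true]
      exact cAB (P.ax_pos _) _ _ _
  have e1 : P.W1 τ (P.path c τ 1) (P.path c τ 2) =
      deriv th2 τ * ((P.ay (P.rd c) - 1) * P.py c + P.by' (P.rd c)) := by
    rcases hz with hz | hz
    · simp [W1, cA_zero hz, cB_zero hz, hz]
    · simp only [W1, hz, P.φ_deriv, hy, mul_ite, mul_one, mul_zero, Finset.sum_ite_eq',
        Finset.mem_univ, if_true]
      exact cAB (P.ay_pos _) _ _ _
  have e2 : P.W2 τ (P.path c τ 0) (P.path c τ 1) (P.path c τ 2) =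
      P.ζ (P.rd c) * (deriv th1 τ - deriv th3 τ) := by
    have a1 : deriv th1 τ * P.h (P.path c τ 0) (P.path c τ 1) = deriv th1 τ * P.ζ (P.rd c) := by
      by_cases h1 : 1 / 4 ≤ τ
      · simp [dth1_zero (Or.inr h1)]
      · simp [path, th2_zero (show τ ≤ 3 / 8 by linarith), P.h_eq]
    have a2 : deriv th3 τ * P.h' (P.path c τ 0) (P.path c τ 1) = deriv th3 τ * P.ζ (P.rd c) := by
      by_cases h1 : τ ≤ 5 / 8
      · simp [dth3_zero (Or.inl h1)]
      · rw [← P.h'_eq, P.px_F, P.py_F]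
        simp only [path, th2_one (show 1 / 2 ≤ τ by linarith), Matrix.cons_val_one,
          Matrix.cons_val_zero]
        congr 2 <;> ring
    have a3 : ∑ r, (cA (P.ax r) τ * deriv idp (P.path c τ 0) +
        cA (P.ay r) τ * deriv idp (P.path c τ 1)) * P.φ r (P.path c τ 2) = 0 := by
      rcases hz with hz | hz
      · simp [cA_zero hz]
      · simp only [hz, P.φ_zero, mul_zero, Finset.sum_const_zero]
    rw [W2, a1, a2, a3]; ring
  refine hasDerivAt_pi.2 fun i => ?_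
  fin_cases i
  · exact (((hasDerivAt_stp 8 (-3) τ).mul_const _).const_add _).congr_deriv e0.symm
  · exact (((hasDerivAt_stp 8 (-3) τ).mul_const _).const_add _).congr_deriv e1.symm
  · exact ((((hasDerivAt_stp 8 (-1) τ).fun_sub (hasDerivAt_stp 8 (-5) τ)).const_mul _).const_add
      _).congr_deriv e2.symm

theorem path_z (c : P.C) (τ : ℝ) :
    0 ≤ P.path c τ 2 ∧ P.path c τ 2 ≤ 1 / 4 + P.ζ (P.rd c) := by
  have h1 : th3 τ ≤ th1 τ := Real.smoothTransition.monotone (by push_cast; linarith)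
  have h2 : th1 τ ≤ 1 := stp_le_one _ _ _
  have h3 : 0 ≤ th3 τ := stp_nonneg _ _ _
  have h4 := P.ζ_nonneg (P.rd c)
  simp only [path, Matrix.cons_val]
  constructor <;> nlinarith

theorem path_half (c : P.C) : P.path c (1 / 2) 2 = 1 / 4 + P.ζ (P.rd c) := by
  simp only [path, Matrix.cons_val, th1_one (show (1 / 4 : ℝ) ≤ 1 / 2 by norm_num),
    th3_zero (show (1 / 2 : ℝ) ≤ 5 / 8 by norm_num)]
  ring

end Parts

end Vale.Agent.P113
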