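import Vale.Agent.P113.Flow

/-! Assembly of the universal forced flow. -/

open Set Filter Topology Vale.Agent.Lib.Comp
open scoped ContDiff

namespace Vale.Agent.P113

noncomputable def th0 : ℝ → ℝ := stp 2 0
noncomputable def eta : ℝ → ℝ := stp 8 (-8)

theorem Eff.unit {A : Type} [Primcodable A] {F : R4 → ℝ} (h : Eff fun _ : Unit => F) :
    Eff fun _ : A => F := h.comp (φ := fun _ => ()) (Computable.const _)

theorem HP.indep {j : Fin 4} {G : R4 → ℝ} (h : ∀ y s, G (y + Pi.single j s) = G y) :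
    HP j G fun _ => 0 := fun y => by
  simp only [h]; exact hasDerivAt_const _ _

theorem force_congr (ν : ℝ) {U V : Fin 3 → R4 → ℝ} {y : R4} (h : ∀ i, U i =ᶠ[𝓝 y] V i)
    (i : Fin 3) : force ν U i y = force ν V i y := by
  simp only [force, (h _).eq_of_nhds, (pd_congr_nhds (h _) _).eq_of_nhds,
    (pd_congr_nhds (pd_congr_nhds (h _) _) _).eq_of_nhds]

theorem force_translate (ν : ℝ) {U : Fin 3 → R4 → ℝ} {v : R4} (h : ∀ i y, U i (y + v) = U i y)
    (i : Fin 3) (y : R4) : force ν U i (y + v) = force ν U i y := by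
  have key : ∀ (G : R4 → ℝ) (j : Fin 4), (∀ y, G (y + v) = G y) →
      ∀ y, pd j G (y + v) = pd j G y := by
    intro G j hG y
    rw [← congrFun (pd_translate G v j) y]
    congr 1
    exact funext hG
  simp only [force, h, key _ _ (h _), key _ _ (key _ _ (h _))]

theorem eff_force {A : Type} [Primcodable A] {ν : ℝ} (hν : ComputableReal ν)
    {U : A → Fin 3 → R4 → ℝ} (h : ∀ i, Eff fun a => U a i) (i : Fin 3) :
    Eff fun a => force ν (U a) i := by
  obtain ⟨g, hg, e⟩ := hν
  have h1 : CR fun _ : A => ν := ⟨fun p => g p.2, by fun_prop, fun _ n => e n⟩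
  exact (((h i).pd 0).add (Eff.sum Finset.univ fun j => (h j).mul ((h i).pd j.succ))).sub
    ((Eff.const h1).mul (Eff.sum Finset.univ fun j : Fin 3 => ((h i).pd j.succ).pd j.succ))

theorem exists_compiler {F : Data → Fin 3 → R4 → ℝ} (h : ∀ i, Eff fun d => F d i)
    (hp : ∀ d i, Per (F d i)) : ∃ comp : Data → Nat.Partrec.Code, Computable comp ∧
      ∀ d, Computes (comp d) fun t x i => desc (F d i) t x := by
  choose g hg e using fun i => (h i).2
  let G : Data × Fin 3 × List (Fin 4) × P4 × Q3 → Q3 := fun p =>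
    bif decide (p.2.1 = 0) then g 0 ((p.1, p.2.2.1, p.2.2.2.1), p.2.2.2.2.2.2) else
    bif decide (p.2.1 = 1) then g 1 ((p.1, p.2.2.1, p.2.2.2.1), p.2.2.2.2.2.2) else
      g 2 ((p.1, p.2.2.1, p.2.2.2.1), p.2.2.2.2.2.2)
  have hG : Computable G := by
    have h0 := hg 0
    have h1 := hg 1
    have h2 := hg 2
    exact co_cond (Primrec.to_comp (by fun_prop)) (by fun_prop)
      (co_cond (Primrec.to_comp (by fun_prop)) (by fun_prop) (by fun_prop))
  have hGi : ∀ p, G p = g p.2.1 ((p.1, p.2.2.1, p.2.2.2.1), p.2.2.2.2.2.2) := by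
    rintro ⟨d, i, r⟩
    fin_cases i <;> rfl
  obtain ⟨c, hc⟩ := Nat.Partrec.Code.exists_code.1 hG
  obtain ⟨f, hf, hfe⟩ := Nat.Partrec.Code.smn
  refine ⟨fun d => f c (Encodable.encode d), hf.comp (Computable.const c) Computable.encode,
    fun d i α y ε hε => ⟨G (d, i, α, y, ε), ?_, ?_⟩⟩
  · rw [hfe, hc]
    have : Nat.pair (Encodable.encode d) (Encodable.encode (i, α, y, ε)) =
      @Encodable.encode _ Primcodable.toEncodable (d, i, α, y, ε) := rfl
    rw [this]
    beta_reduce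
    rw [Encodable.encodek]
    exact Part.mem_bind (Part.mem_some _) (Part.mem_map _ (Part.mem_some _))
  · rw [hGi]
    have h1 : (lift fun t x => desc (F d i) t x) = F d i := lift_desc (hp d i)
    rw [h1]
    refine (e i (d, α, y) ε.2.2).trans ?_
    have h2 : (ε.2.1 : ℝ) + 1 ≤ ε.1 := by exact_mod_cast (rat_pos_iff ε).1 hε
    unfold rat
    gcongr
    linarith

namespace Parts
variable (P : Parts)

noncomputable def Wp (i : Fin 3) (y : R4) : ℝ := P.W (Int.fract (y 0)) (fun j => y j.succ) i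

noncomputable def U (d : Data) (i : Fin 3) (y : R4) : ℝ :=
  deriv th0 (y 0) * P.start (P.c0 d) i + eta (y 0) * P.Wp i y

theorem s1_fA {α : ℚ} (h : 0 < α) : S1 0 fun t => cA α (Int.fract t) :=
  (s1_cA h).per fun x hx => cA_zero (dth2_zero (by
    rcases hx with h | h <;> [left; right] <;> linarith))

theorem s1_fB {α : ℚ} (h : 0 < α) (β : ℚ) : S1 0 fun t => cB α β (Int.fract t) :=
  (s1_cB h β).per fun x hx => cB_zero (dth2_zero (by
    rcases hx with h | h <;> [left; right] <;> linarith))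

theorem s1_f1 : S1 0 fun t => deriv th1 (Int.fract t) :=
  ((E1.stp 8 (-1)).s1 0).deriv.per fun x hx => dth1_zero (by
    rcases hx with h | h <;> [left; right] <;> linarith)

theorem s1_f3 : S1 0 fun t => deriv th3 (Int.fract t) :=
  ((E1.stp 8 (-5)).s1 0).deriv.per fun x hx => dth3_zero (by
    rcases hx with h | h <;> [left; right] <;> linarith)

theorem eff_Wp (i : Fin 3) : Eff fun _ : Unit => P.Wp i := by
  fin_cases i
  · exact Eff.sum Finset.univ fun r => Eff.mul (Eff.add (Eff.mul (s1_fA (P.ax_pos r)) (s1_idp 1))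
      (s1_fB (P.ax_pos r) (P.bx r))) (P.φ_s1 r).deriv
  · exact Eff.sum Finset.univ fun r => Eff.mul (Eff.add (Eff.mul (s1_fA (P.ay_pos r)) (s1_idp 2))
      (s1_fB (P.ay_pos r) (P.by' r))) (P.φ_s1 r).deriv
  · exact Eff.sub (Eff.sub (Eff.mul s1_f1 P.h_good.1) (Eff.mul s1_f3 P.h'_good.1))
      (Eff.sum Finset.univ fun r => Eff.mul (Eff.add (Eff.mul (s1_fA (P.ax_pos r)) (s1_idp 1).deriv)
        (Eff.mul (s1_fA (P.ay_pos r)) (s1_idp 2).deriv)) (P.φ_s1 r))

theorem eff_U (i : Fin 3) : Eff fun d => P.U d i := by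
  have h1 : CR fun d => P.start (P.c0 d) i := by
    fin_cases i
    · exact P.cr_x
    · exact P.cr_y
    · exact (CR.const_rat (1 / 4)).congr fun _ => by simp [start]
  exact Eff.add (Eff.mul (Eff.unit ((E1.stp 2 0).s1 0).deriv) (Eff.const h1))
    (Eff.mul (Eff.unit ((E1.stp 8 (-8)).s1 0)) (P.eff_Wp i).unit)

theorem per_Wp (i : Fin 3) : Per (P.Wp i) := by
  intro k hk y
  have h1 : ZPer idp := zper_perz _
  fin_cases i
  · simp [Wp, W, W0, hk, h1 _ _, (P.φ_per _).deriv _ _]
  · simp [Wp, W, W1, hk, h1 _ _, (P.φ_per _).deriv _ _]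
  · simp [Wp, W, W2, hk, h1.deriv _ _, P.φ_per _ _ _, P.h_good.2, P.h'_good.2]

theorem per_U (d : Data) (i : Fin 3) : Per (P.U d i) := fun k hk y => by
  simp [U, P.per_Wp i k hk y, hk]

theorem div_U (d : Data) (y : R4) : ∑ j : Fin 3, pd j.succ (P.U d j) y = 0 := by
  have t0 : ∀ (g : ℝ → ℝ) (j : Fin 3), HP j.succ (fun y => g (y 0)) fun _ => 0 :=
    fun g j => HP.indep fun y s => by simp
  have h0 : HP 1 (P.Wp 0) fun y =>
      ∑ r, cA (P.ax r) (Int.fract (y 0)) * deriv idp (y 1) * deriv (P.φ r) (y 3) := by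
    refine (HP.sum Finset.univ fun r =>
      (((t0 (fun t => cA (P.ax r) (Int.fract t)) 0).mul ((s1_idp 1).hp 1)).add
        (t0 (fun t => cB (P.ax r) (P.bx r) (Int.fract t)) 0)).mul
        ((P.φ_s1 r).deriv.hp 1)).congr fun y => by simp
  have h1 : HP 2 (P.Wp 1) fun y =>
      ∑ r, cA (P.ay r) (Int.fract (y 0)) * deriv idp (y 2) * deriv (P.φ r) (y 3) := by
    refine (HP.sum Finset.univ fun r =>
      (((t0 (fun t => cA (P.ay r) (Int.fract t)) 1).mul ((s1_idp 2).hp 2)).add
        (t0 (fun t => cB (P.ay r) (P.by' r) (Int.fract t)) 1)).mul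
        ((P.φ_s1 r).deriv.hp 2)).congr fun y => by simp
  have h2 : HP 3 (P.Wp 2) fun y => - ∑ r, (cA (P.ax r) (Int.fract (y 0)) * deriv idp (y 1) +
      cA (P.ay r) (Int.fract (y 0)) * deriv idp (y 2)) * deriv (P.φ r) (y 3) := by
    have a1 : HP 3 (fun y : R4 => deriv th1 (Int.fract (y 0)) * P.h (y 1) (y 2) -
        deriv th3 (Int.fract (y 0)) * P.h' (y 1) (y 2)) fun _ => 0 :=
      HP.indep fun y s => by simp
    have a2 : ∀ r, HP 3 (fun y : R4 => cA (P.ax r) (Int.fract (y 0)) * deriv idp (y 1) +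
        cA (P.ay r) (Int.fract (y 0)) * deriv idp (y 2)) fun _ => 0 :=
      fun r => HP.indep fun y s => by simp
    refine (a1.sub (HP.sum Finset.univ fun r => (a2 r).mul ((P.φ_s1 r).hp 3))).congr
      fun y => by simp
  have k0 := (((t0 (deriv th0) 0).mul (HP.const _ (P.start (P.c0 d) 0))).add
    ((t0 eta 0).mul h0)).pd_eq
  have k1 := (((t0 (deriv th0) 1).mul (HP.const _ (P.start (P.c0 d) 1))).add
    ((t0 eta 1).mul h1)).pd_eq
  have k2 := (((t0 (deriv th0) 2).mul (HP.const _ (P.start (P.c0 d) 2))).add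
    ((t0 eta 2).mul h2)).pd_eq
  rw [Fin.sum_univ_three]
  refine (congrArg₂ (· + ·) (congrArg₂ (· + ·) (congrFun k0 y) (congrFun k1 y))
    (congrFun k2 y)).trans ?_
  simp only [add_mul, Finset.sum_add_distrib]
  ring

theorem U_zero (d : Data) (i : Fin 3) (y : R4) (h : y 0 = 0) : P.U d i y = 0 := by
  have h1 : deriv th0 0 = 0 := deriv_stp_zero (Or.inl (by simp))
  have h2 : eta 0 = 0 := stp_zero (by norm_num)
  simp [U, h, h1, h2]

theorem U_late (d : Data) (i : Fin 3) (y : R4) (h : 1 ≤ y 0) : P.U d i y = P.Wp i y := by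
  have h1 : deriv th0 (y 0) = 0 := deriv_stp_zero (Or.inr (by push_cast; linarith))
  rw [U, h1, zero_mul, zero_add]
  by_cases h2 : 9 / 8 ≤ y 0
  · rw [show eta (y 0) = 1 from stp_one (by push_cast; linarith), one_mul]
  · have h3 : Int.fract (y 0) = y 0 - 1 := by
      rw [Int.fract, show ⌊y 0⌋ = 1 from Int.floor_eq_iff.2 ⟨by simpa using h, by
        push_cast; linarith⟩]
      simp
    rw [Wp, P.W_zero (Or.inl (by linarith))]
    simp

theorem U_early (d : Data) (i : Fin 3) (y : R4) (h : y 0 ≤ 1) :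
    P.U d i y = deriv th0 (y 0) * P.start (P.c0 d) i := by
  rw [U, show eta (y 0) = 0 from stp_zero (by push_cast; linarith), zero_mul, add_zero]

theorem force_late (ν : ℝ) (d : Data) (i : Fin 3) (y : R4) (h : 1 < y 0) :
    force ν (P.U d) i y = force ν P.Wp i y := by
  refine force_congr ν (fun j => ?_) i
  filter_upwards [(continuous_apply 0).continuousAt.eventually (Ioi_mem_nhds h)] with z hz
  exact P.U_late d j z (le_of_lt hz)

theorem force_periodic (ν : ℝ) (i : Fin 3) (t : ℝ) (v : Fin 3 → ℝ) :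
    force ν P.Wp i (Fin.cons (t + 1) v) = force ν P.Wp i (Fin.cons t v) := by
  rw [← force_translate ν (v := Pi.single 0 1) (fun i y => by simp [Wp]) i (Fin.cons t v)]
  congr 1
  funext j
  refine Fin.cases ?_ (fun j => ?_) j <;> simp

/-- The explicit trajectory. -/
noncomputable def X (d : Data) (t : ℝ) : Fin 3 → ℝ :=
  if t < 1 then th0 t • P.start (P.c0 d)
  else P.path (P.F^[⌊t⌋₊ - 1] (P.c0 d)) (Int.fract t)

theorem X_late (d : Data) (k : ℕ) {t : ℝ} (h1 : (k : ℝ) + 1 ≤ t) (h2 : t < k + 2) :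
    Int.fract t = t - (k + 1) ∧ P.X d t = P.path (P.F^[k] (P.c0 d)) (t - (k + 1)) := by
  have hk : (0 : ℝ) ≤ k := by positivity
  have h3 : ⌊t⌋₊ = k + 1 := (Nat.floor_eq_iff (by linarith)).2 ⟨by push_cast; linarith, by
    push_cast; linarith⟩
  have h4 : Int.fract t = t - (k + 1) := by
    rw [Int.fract, show ⌊t⌋ = (k : ℤ) + 1 from Int.floor_eq_iff.2 ⟨by push_cast; linarith, by
      push_cast; linarith⟩]
    simp
  refine ⟨h4, ?_⟩
  rw [X, if_neg (by linarith), h3, h4, Nat.add_sub_cancel]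

theorem exists_k {t : ℝ} (h : 1 ≤ t) : ∃ k : ℕ, (k : ℝ) + 1 ≤ t ∧ t < k + 2 :=
  ⟨⌊t - 1⌋₊, by linarith [Nat.floor_le (show 0 ≤ t - 1 by linarith)],
    by linarith [Nat.lt_floor_add_one (t - 1)]⟩

theorem hasDerivAt_X (d : Data) (t : ℝ) :
    HasDerivAt (P.X d) (fun i => P.U d i (Fin.cons t (P.X d t))) t := by
  rcases lt_or_ge t 1 with h | h
  · have h1 : P.X d =ᶠ[𝓝 t] fun s => th0 s • P.start (P.c0 d) := by
      filter_upwards [Iio_mem_nhds h] with s hs
      rw [X, if_pos (show s < 1 from hs)]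
    refine (((hasDerivAt_stp 2 0 t).smul_const _).congr_of_eventuallyEq h1).congr_deriv ?_
    funext i
    rw [P.U_early _ _ _ (by simpa using h.le)]
    rfl
  · obtain ⟨k, h1, h2⟩ := exists_k h
    have h3 : P.X d =ᶠ[𝓝 t] fun s => P.path (P.F^[k] (P.c0 d)) (s - (k + 1)) := by
      filter_upwards [Ioo_mem_nhds (show (k : ℝ) + 3 / 4 < t by linarith) h2] with s hs
      rcases le_or_gt ((k : ℝ) + 1) s with h4 | h4
      · exact (P.X_late d k h4 hs.2).2
      · rw [P.path_early _ (by linarith)]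
        rcases k with _ | k
        · simp only [Nat.cast_zero, zero_add] at h4 hs
          rw [X, if_pos h4, show th0 s = 1 from stp_one (by push_cast; linarith [hs.1]), one_smul]
          rfl
        · push_cast at h4 hs
          rw [(P.X_late d k (by linarith [hs.1]) (by linarith)).2,
            P.path_late _ (by linarith [hs.1]), Function.iterate_succ_apply']
    refine (((P.hasDerivAt_path _ _).comp_sub_const t _).congr_of_eventuallyEq h3).congr_deriv ?_
    funext i
    rw [P.U_late _ _ _ (by simpa using h), Wp, ← (P.X_late d k h1 h2).2]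
    simp [(P.X_late d k h1 h2).1]

theorem X_zero (d : Data) : P.X d 0 = 0 := by
  rw [X, if_pos one_pos, show th0 0 = 0 from stp_zero (by simp), zero_smul]

end Parts

/-- The target region: the third coordinate lies in `(1/2, 1)` modulo one. -/
def target : Set T3 := {x | x 2 ∈ (fun s : ℝ => (s : UnitAddCircle)) '' Ioo (1 / 2) 1}

theorem isOpen_target : IsOpen target := by
  have h : IsOpen ((fun s : ℝ => (s : UnitAddCircle)) '' Ioo (1 / 2) 1) :=
    QuotientAddGroup.isOpenMap_coe _ isOpen_Ioo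
  exact h.preimage (continuous_apply (2 : Fin 3) : Continuous fun x : T3 => x 2)

theorem proj_mem_target {v : Fin 3 → ℝ} (h0 : 0 ≤ v 2) (h1 : v 2 < 1) :
    proj v ∈ target ↔ 1 / 2 < v 2 := by
  constructor
  · rintro ⟨s, hs, e⟩
    have : s = v 2 := (AddCircle.coe_eq_coe_iff_of_mem_Ico (p := (1 : ℝ)) (a := 0)
      ⟨by linarith [hs.1], by linarith [hs.2]⟩ ⟨h0, by linarith⟩).1 e
    rw [← this]; exact hs.1
  · exact fun h => ⟨v 2, ⟨h, h1⟩, rfl⟩

theorem Parts.hit_iff (P : Parts) (d : Data) :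
    (∃ t, 0 ≤ t ∧ proj (P.X d t) ∈ target) ↔ ∃ k, haltsIn d k = true := by
  rw [← P.halts]
  constructor
  · rintro ⟨t, ht, h⟩
    rcases lt_or_ge t 1 with h1 | h1
    · have h2 : 0 ≤ th0 t := stp_nonneg _ _ _
      have h3 : th0 t ≤ 1 := stp_le_one _ _ _
      have h4 : P.X d t 2 = th0 t * (1 / 4) := by simp [Parts.X, h1, Parts.start]
      have := (proj_mem_target (by linarith) (by linarith)).1 h
      linarith
    · obtain ⟨k, h2, h3⟩ := Parts.exists_k h1
      rw [(P.X_late d k h2 h3).2] at h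
      have h4 := P.path_z (P.F^[k] (P.c0 d)) (t - (k + 1))
      have h5 := P.ζ_le (P.rd (P.F^[k] (P.c0 d)))
      have := (proj_mem_target h4.1 (by linarith [h4.2])).1 h
      exact ⟨k, (P.ζ_halt _).2 (by linarith [h4.2])⟩
  · rintro ⟨k, hk⟩
    refine ⟨k + 3 / 2, by positivity, ?_⟩
    rw [(P.X_late d k (by linarith) (by linarith)).2,
      show (k : ℝ) + 3 / 2 - (k + 1) = 1 / 2 by ring]
    have h1 := (P.ζ_halt _).1 hk
    have h2 := P.ζ_le (P.rd (P.F^[k] (P.c0 d)))
    have h3 := P.path_half (P.F^[k] (P.c0 d))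
    exact (proj_mem_target (by linarith) (by linarith)).2 (by linarith)

theorem Parts.traj (P : Parts) (d : Data) :
    IsTrajectory (fun t x i => desc (P.U d i) t x) 0 (P.X d) ∧
      ∀ Y, IsTrajectory (fun t x i => desc (P.U d i) t x) 0 Y →
        ∀ t, 0 ≤ t → proj (Y t) = proj (P.X d t) := by
  have h0 : proj 0 = 0 := by funext j; simp [proj]
  constructor
  · refine ⟨by rw [P.X_zero, h0], fun t _ => ?_⟩
    simp only [desc_proj (P.per_U d _)]
    exact (P.hasDerivAt_X d t).hasDerivWithinAt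
  · rintro Y ⟨h1, h2⟩ t ht
    obtain ⟨k, hk⟩ := exists_int_of_proj_eq (h1.trans h0.symm)
    have h3 := traj_unique (U := P.U d) (fun i => (P.eff_U i).1 d) (X := Y)
      (Y := fun s => P.X d s + fun j => (k j : ℝ))
      (fun s hs => by simpa only [desc_proj (P.per_U d _)] using h2 s hs)
      (fun s _ => by
        simp only [← desc_proj (P.per_U d _), proj_add_int]
        simp only [desc_proj (P.per_U d _)]
        exact ((P.hasDerivAt_X d s).add_const _).hasDerivWithinAt)
      (by rw [P.X_zero, hk]) ht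
    rw [h3, proj_add_int]

end Vale.Agent.P113
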