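import Vale.Agent.P113.OneD
import Vale.Agent.P113.Block

/-! Cantor coding of the block system. -/

open Set Vale.Agent.Lib.Comp

namespace Vale.Agent.P113

/-- An effective doubly periodic function of the two horizontal coordinates. -/
def Good (h : ℝ → ℝ → ℝ) : Prop :=
  Eff (fun (_ : Unit) y => h (y 1) (y 2)) ∧ ∀ (x y : ℝ) (m n : ℤ), h (x + m) (y + n) = h x y

section Coding
variable {S : Type} (dg : S → ℕ) (K : ℕ)

def enc : List S → ℚ
  | [] => 0
  | a :: l => (dg a + enc l) / K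

variable {dg K}

theorem enc_mem (hK : ∀ s, 2 * dg s + 1 ≤ K) (l : List S) :
    (0 : ℝ) ≤ enc dg K l ∧ (enc dg K l : ℝ) ≤ 1 / 2 := by
  induction l with
  | nil => simp [enc]
  | cons a l ih =>
    have h1 : (2 * dg a + 1 : ℝ) ≤ K := by exact_mod_cast hK a
    have h2 : (0 : ℝ) ≤ dg a := by positivity
    have h3 : (0 : ℝ) < K := by linarith
    simp only [enc]
    push_cast
    refine ⟨div_nonneg (by linarith [ih.1]) h3.le, ?_⟩
    rw [div_le_iff₀ h3]
    linarith [ih.2]

theorem enc_pad {bl : S} (h0 : dg bl = 0) (hK : K ≠ 0) (l : List S) :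
    K * enc dg K l = dg (l.getD 0 bl) + enc dg K (l.drop 1) := by
  cases l with
  | nil => simp [enc, h0]
  | cons a l =>
    have : (K : ℚ) ≠ 0 := by exact_mod_cast hK
    simp only [enc, List.getD_cons_zero, List.drop_one, List.tail_cons]
    field_simp

theorem enc_append (w l : List S) :
    enc dg K (w ++ l) = enc dg K w + enc dg K l / K ^ w.length := by
  induction w with
  | nil => simp [enc]
  | cons a w ih =>
    simp only [List.cons_append, enc, ih, List.length_cons, pow_succ]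
    rw [← div_div]; ring

theorem enc_replicate (hK : 2 ≤ K) (b : S) (m : ℕ) :
    enc dg K (List.replicate m b) = dg b / (K - 1) * (1 - (1 / K) ^ m) := by
  have h1 : (2 : ℚ) ≤ K := by exact_mod_cast hK
  have h2 : (K : ℚ) - 1 ≠ 0 := by linarith
  have h3 : (K : ℚ) ≠ 0 := by linarith
  induction m with
  | zero => simp [enc]
  | succ m ih =>
    simp only [List.replicate_succ, enc, ih, pow_succ]
    field_simp
    ring

variable (dg K)

def N1 (G : List S → ℝ) : Prop := ∃ g, E1 g ∧ ∀ l, g (enc dg K l) = G l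

def N2 (H : List S × List S → ℝ) : Prop :=
  ∃ h, Good h ∧ ∀ c : List S × List S, h (1 / 4 + enc dg K c.1) (1 / 4 + enc dg K c.2) = H c

open Classical in
def NM {A : Type} (π : List S × List S → A) : Prop :=
  ∀ a, N2 dg K fun c => if π c = a then 1 else 0

variable {dg K} {bl : S}

theorem bump_digit (hinj : Function.Injective dg) (h0 : dg bl = 0) (hK : ∀ s, 2 * dg s + 1 ≤ K)
    (l : List S) (a : S) [Decidable (l.getD 0 bl = a)] :
    bump (((K : ℚ) : ℝ) * enc dg K l + ((-(dg a : ℚ) : ℚ) : ℝ)) =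
      if l.getD 0 bl = a then 1 else 0 := by
  have hK0 : K ≠ 0 := by have := hK bl; omega
  have h1 : ((K : ℚ) : ℝ) * enc dg K l + ((-(dg a : ℚ) : ℚ) : ℝ) =
      (dg (l.getD 0 bl) : ℝ) - dg a + enc dg K (l.drop 1) := by
    have := congrArg (fun q : ℚ => (q : ℝ)) (enc_pad h0 hK0 l)
    push_cast at this ⊢
    linarith
  have h2 := enc_mem hK (l.drop 1)
  rw [h1]
  split_ifs with h
  · rw [h, sub_self, zero_add]; exact bump_one h2.1 h2.2
  · exact bump_int_add (fun e => h (hinj e)) (by linarith [h2.1]) h2.2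

theorem N1.tail [Fintype S] (hinj : Function.Injective dg) (h0 : dg bl = 0)
    (hK : ∀ s, 2 * dg s + 1 ≤ K) {G : List S → ℝ} (h : N1 dg K G) :
    N1 dg K fun l => G (l.drop 1) := by
  classical
  obtain ⟨g, hg, e⟩ := h
  refine ⟨_, E1.sum Finset.univ fun a : S =>
    (E1.bump.affine K (-(dg a : ℚ))).mul (hg.affine K (-(dg a : ℚ))), fun l => ?_⟩
  simp only [bump_digit hinj h0 hK, ite_mul, one_mul, zero_mul, Finset.sum_ite_eq,
    Finset.mem_univ, if_true]
  rw [← e]
  congr 1
  have hK0 : K ≠ 0 := by have := hK bl; omega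
  have := congrArg (fun q : ℚ => (q : ℝ)) (enc_pad h0 hK0 l)
  push_cast at this ⊢
  linarith

open Classical in
theorem N1.ind [Fintype S] (hinj : Function.Injective dg) (h0 : dg bl = 0)
    (hK : ∀ s, 2 * dg s + 1 ≤ K) (a : S) (i : ℕ) :
    N1 dg K fun l => if l.getD i bl = a then 1 else 0 := by
  induction i with
  | zero => exact ⟨_, E1.bump.affine K (-(dg a : ℚ)), fun l => bump_digit hinj h0 hK l a⟩
  | succ i ih =>
    obtain ⟨g, hg, e⟩ := ih.tail hinj h0 hK
    refine ⟨g, hg, fun l => (e l).trans ?_⟩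
    cases l <;> simp

theorem N1.perz (hK : ∀ s, 2 * dg s + 1 ≤ K) {G : List S → ℝ} (h : N1 dg K G) :
    ∃ g : ℝ → ℝ, (∀ j, S1 j g) ∧ ZPer g ∧ ∀ l, g (1 / 4 + enc dg K l) = G l := by
  obtain ⟨g, hg, e⟩ := h
  refine ⟨_, fun j => ((hg.affine 1 (-1 / 4)).s1 j).perz, zper_perz _, fun l => ?_⟩
  have := enc_mem hK l
  rw [perz_eq _ (by linarith [this.1]) (by linarith [this.2]), ← e]
  congr 1
  push_cast
  ring

theorem N1.left (hK : ∀ s, 2 * dg s + 1 ≤ K) {G : List S → ℝ} (h : N1 dg K G) :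
    N2 dg K fun c => G c.1 := by
  obtain ⟨g, h1, h2, h3⟩ := h.perz hK
  exact ⟨fun x _ => g x, ⟨h1 1, fun x _ m _ => h2 x m⟩, fun c => h3 _⟩

theorem N1.right (hK : ∀ s, 2 * dg s + 1 ≤ K) {G : List S → ℝ} (h : N1 dg K G) :
    N2 dg K fun c => G c.2 := by
  obtain ⟨g, h1, h2, h3⟩ := h.perz hK
  exact ⟨fun _ y => g y, ⟨h1 2, fun _ y _ n => h2 y n⟩, fun c => h3 _⟩

theorem N2.congr {G H : List S × List S → ℝ} (h : N2 dg K G) (e : ∀ c, G c = H c) :
    N2 dg K H := by rwa [show H = G from (funext e).symm]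

theorem N2.mul {G H : List S × List S → ℝ} (h : N2 dg K G) (k : N2 dg K H) :
    N2 dg K fun c => G c * H c := by
  obtain ⟨g, ⟨g1, g2⟩, g3⟩ := h
  obtain ⟨h, ⟨h1, h2⟩, h3⟩ := k
  exact ⟨fun x y => g x y * h x y, ⟨g1.mul h1, fun x y m n => by simp only [g2, h2]⟩,
    fun c => by simp only [g3, h3]⟩

theorem NM.pair {A B : Type} {π : List S × List S → A} {κ : List S × List S → B}
    (h : NM dg K π) (k : NM dg K κ) : NM dg K fun c => (π c, κ c) := by
  rintro ⟨a, b⟩
  refine ((h a).mul (k b)).congr fun c => ?_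
  by_cases h1 : π c = a <;> by_cases h2 : κ c = b <;> simp [h1, h2]

theorem NM.fn {A : Type} [Fintype A] {π : List S × List S → A} (h : NM dg K π) (φ : A → ℚ) :
    N2 dg K fun c => φ (π c) := by
  classical
  choose g hg e using h
  refine ⟨fun x y => ∑ a, φ a * g a x y,
    ⟨Eff.sum Finset.univ fun a => (Eff.const_rat (φ a)).mul (hg a).1,
      fun x y m n => by simp only [(hg _).2]⟩, fun c => ?_⟩
  simp only [e]
  simp

end Coding

/-- The geometric data of the simulation. -/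
structure Geo where
  C : Type
  ρ : Type
  fin : Fintype ρ
  F : C → C
  rd : C → ρ
  halt : ρ → Prop
  px : C → ℝ
  py : C → ℝ
  ax : ρ → ℚ
  bx : ρ → ℚ
  ay : ρ → ℚ
  by' : ρ → ℚ
  c0 : Data → C
  px_mem : ∀ c, px c ∈ Icc (1 / 4 : ℝ) (3 / 4)
  py_mem : ∀ c, py c ∈ Icc (1 / 4 : ℝ) (3 / 4)
  ax_pos : ∀ r, 0 < ax r
  ay_pos : ∀ r, 0 < ay r
  px_F : ∀ c, px (F c) = ax (rd c) * px c + bx (rd c)
  py_F : ∀ c, py (F c) = ay (rd c) * py c + by' (rd c)
  up : ∀ ζ : ρ → ℚ, ∃ h, Good h ∧ ∀ c, h (px c) (py c) = ζ (rd c)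
  down : ∀ ζ : ρ → ℚ, ∃ h, Good h ∧ ∀ c, h (px (F c)) (py (F c)) = ζ (rd c)
  cr_x : CR fun d => px (c0 d)
  cr_y : CR fun d => py (c0 d)
  halts : ∀ d, (∃ k, halt (rd (F^[k] (c0 d)))) ↔ ∃ k, haltsIn d k = true

theorem exists_geo : Nonempty Geo := by
  classical
  obtain ⟨S, _, bl, act, back, halt, s, a, b, hback, hh⟩ := exists_block
  obtain ⟨dg, hinj, h0⟩ : ∃ dg : S → ℕ, Function.Injective dg ∧ dg bl = 0 := by
    let e := Fintype.equivFin S
    refine ⟨fun x => if x = bl then 0 else (e x).val + 1, fun x y h => ?_, by simp⟩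
    by_cases h1 : x = bl <;> by_cases h2 : y = bl <;> simp [h1, h2] at h ⊢
    exact e.injective (Fin.ext h)
  obtain ⟨K, hK, hK2⟩ : ∃ K, (∀ x, 2 * dg x + 1 ≤ K) ∧ 2 ≤ K := by
    refine ⟨2 * (∑ x, dg x) + 2, fun x => ?_, by omega⟩
    have := Finset.single_le_sum (f := dg) (fun _ _ => Nat.zero_le _) (Finset.mem_univ x)
    omega
  have hK0 : K ≠ 0 := by omega
  have hKq : (K : ℚ) ≠ 0 := by exact_mod_cast hK0
  have hKpos : (0 : ℚ) < K := by positivity
  have nl : ∀ i, NM dg K fun c => c.1.getD i bl := fun i x => by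
    convert (N1.ind hinj h0 hK x i).left hK
  have nr : ∀ i, NM dg K fun c => c.2.getD i bl := fun i x => by
    convert (N1.ind hinj h0 hK x i).right hK
  have nrd : NM dg K (rd bl) := (nl 0).pair ((nl 1).pair (nr 0))
  have ntop : NM dg K (top bl) :=
    ((nl 0).pair ((nl 1).pair ((nl 2).pair (nl 3)))).pair ((nr 0).pair ((nr 1).pair (nr 2)))
  refine ⟨{
    C := List S × List S
    ρ := S × S × S
    fin := inferInstance
    F := nxt bl act
    rd := rd bl
    halt := halt
    px := fun c => 1 / 4 + enc dg K c.1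
    py := fun c => 1 / 4 + enc dg K c.2
    ax := fun r => K ^ 2 / K ^ (act r).1.length
    bx := fun r => 1 / 4 + enc dg K (act r).1 -
      (K * dg r.1 + dg r.2.1 + K ^ 2 / 4) / K ^ (act r).1.length
    ay := fun r => K / K ^ (act r).2.length
    by' := fun r => 1 / 4 + enc dg K (act r).2 - (dg r.2.2 + K / 4) / K ^ (act r).2.length
    c0 := fun d => ([s], a :: List.replicate (Encodable.encode d + 1) b)
    px_mem := fun c => ⟨by linarith [(enc_mem hK c.1).1], by linarith [(enc_mem hK c.1).2]⟩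
    py_mem := fun c => ⟨by linarith [(enc_mem hK c.2).1], by linarith [(enc_mem hK c.2).2]⟩
    ax_pos := fun r => by positivity
    ay_pos := fun r => by positivity
    px_F := fun c => ?_
    py_F := fun c => ?_
    up := fun ζ => nrd.fn ζ
    down := fun ζ => ?_
    cr_x := (CR.const_rat (1 / 4 + enc dg K [s])).congr fun _ => by push_cast; rfl
    cr_y := ?_
    halts := hh }⟩
  · have h1 := enc_pad h0 hK0 c.1
    have h2 := enc_pad h0 hK0 (c.1.drop 1)
    have h3 : (c.1.drop 1).getD 0 bl = c.1.getD 1 bl := by cases c.1 <;> simp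
    rw [h3, List.drop_drop] at h2
    have h4 : enc dg K (c.1.drop 2) =
        K ^ 2 * enc dg K c.1 - K * dg (c.1.getD 0 bl) - dg (c.1.getD 1 bl) := by
      have : enc dg K (c.1.drop 1) = K * enc dg K c.1 - dg (c.1.getD 0 bl) := by linarith
      rw [this] at h2
      linarith
    have h5 : 1 / 4 + enc dg K (nxt bl act c).1 =
        K ^ 2 / K ^ (act (rd bl c)).1.length * (1 / 4 + enc dg K c.1) +
        (1 / 4 + enc dg K (act (rd bl c)).1 - (K * dg (rd bl c).1 + dg (rd bl c).2.1 + K ^ 2 / 4)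
          / K ^ (act (rd bl c)).1.length) := by
      simp only [nxt, enc_append, h4]
      simp only [rd]
      ring
    have h6 := congrArg (fun q : ℚ => (q : ℝ)) h5
    push_cast at h6 ⊢
    exact h6
  · have h1 := enc_pad h0 hK0 c.2
    have h4 : enc dg K (c.2.drop 1) = K * enc dg K c.2 - dg (c.2.getD 0 bl) := by linarith
    have h5 : 1 / 4 + enc dg K (nxt bl act c).2 =
        K / K ^ (act (rd bl c)).2.length * (1 / 4 + enc dg K c.2) +
        (1 / 4 + enc dg K (act (rd bl c)).2 - (dg (rd bl c).2.2 + K / 4)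
          / K ^ (act (rd bl c)).2.length) := by
      simp only [nxt, enc_append, h4]
      simp only [rd]
      ring
    have h6 := congrArg (fun q : ℚ => (q : ℝ)) h5
    push_cast at h6 ⊢
    exact h6
  · obtain ⟨h, h1, h2⟩ := ntop.fn fun x => ζ (back x)
    exact ⟨h, h1, fun c => by rw [h2]; simp only [hback]⟩
  · have h1 : CR fun d : Data => ((1 / K : ℚ) : ℝ) ^ (Encodable.encode d + 1) :=
      (CR.const_rat _).pow (by fun_prop)
    refine ((CR.const_rat (1 / 4 + dg a / K)).add ((CR.const_rat (dg b / (K - 1) / K)).mul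
      ((CR.const_rat 1).sub h1))).congr fun d => ?_
    simp only [enc, enc_replicate hK2]
    push_cast
    ring

end Vale.Agent.P113
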