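import Vale.Agent.P113.Eff
import Mathlib.Analysis.Calculus.LocalExtr.Basic
import Mathlib.Analysis.Calculus.Deriv.Shift

/-! One-variable effective building blocks. -/

open Filter Topology Real
open scoped ContDiff

namespace Vale.Agent.P113

/-- `g` is effective after every rational affine change of variable. -/
def E1 (g : ℝ → ℝ) : Prop :=
  ∀ (j : Fin 4) (c d : ℚ), Eff fun (_ : Unit) y => g (c * y j + d)

/-- `g`, read in coordinate `j`, is effective. -/
def S1 (j : Fin 4) (g : ℝ → ℝ) : Prop := Eff fun (_ : Unit) y => g (y j)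

theorem E1.s1 {g : ℝ → ℝ} (h : E1 g) (j : Fin 4) : S1 j g :=
  (h j 1 0).congr fun _ y => by simp

theorem E1.congr {g k : ℝ → ℝ} (h : E1 g) (e : ∀ x, g x = k x) : E1 k := by
  rwa [show k = g from (funext e).symm]

theorem E1.const (q : ℚ) : E1 fun _ => (q : ℝ) := fun _ _ _ => Eff.const_rat q

theorem E1.id : E1 fun x => x := fun j c d =>
  ((Eff.const_rat c).mul (Eff.coord j)).add (Eff.const_rat d)

theorem E1.add {g k : ℝ → ℝ} (h : E1 g) (hk : E1 k) : E1 fun x => g x + k x :=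
  fun j c d => (h j c d).add (hk j c d)

theorem E1.mul {g k : ℝ → ℝ} (h : E1 g) (hk : E1 k) : E1 fun x => g x * k x :=
  fun j c d => (h j c d).mul (hk j c d)

theorem E1.sum {ι : Type*} (s : Finset ι) {g : ι → ℝ → ℝ} (h : ∀ i, E1 (g i)) :
    E1 fun x => ∑ i ∈ s, g i x := fun j c d => Eff.sum s fun i => h i j c d

theorem E1.affine {g : ℝ → ℝ} (h : E1 g) (a b : ℚ) : E1 fun x => g (a * x + b) :=
  fun j c d => (h j (a * c) (a * d + b)).congr fun _ y => by push_cast; ring_nf

theorem E1.inv {g : ℝ → ℝ} (h : E1 g) {m : ℝ} (hm : 0 < m) (hg : ∀ x, m ≤ g x) :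
    E1 fun x => (g x)⁻¹ := by
  obtain ⟨N, hN⟩ := exists_nat_one_div_lt hm
  exact fun j c d => (h j c d).inv N fun _ _ => hN.le.trans (hg _)

theorem E1.glue : E1 expNegInvGlue := fun j c d => Eff.glue j c d

theorem E1.sigma : E1 smoothTransition := by
  have h1 : E1 fun x => expNegInvGlue (1 - x) :=
    (E1.glue.affine (-1) 1).congr fun x => by push_cast; ring_nf
  have h2 := (E1.glue.add h1).inv (m := expNegInvGlue (1 / 2))
    (expNegInvGlue.pos_of_pos (by norm_num)) (fun x => by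
      rcases le_total (1 / 2 : ℝ) x with h | h
      · linarith [expNegInvGlue.monotone h, expNegInvGlue.nonneg (1 - x)]
      · linarith [expNegInvGlue.monotone (show (1 / 2 : ℝ) ≤ 1 - x by linarith),
          expNegInvGlue.nonneg x])
  exact (E1.glue.mul h2).congr fun x => by rw [smoothTransition, div_eq_mul_inv]

theorem S1.contDiff {j : Fin 4} {g : ℝ → ℝ} (h : S1 j g) : ContDiff ℝ ∞ g :=
  (h.1 ()).comp (f := fun x : ℝ => fun _ : Fin 4 => x) (contDiff_pi.2 fun _ => contDiff_id)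

theorem S1.hasDerivAt {j : Fin 4} {g : ℝ → ℝ} (h : S1 j g) (x : ℝ) :
    HasDerivAt g (deriv g x) x := (h.contDiff.differentiable (by simp) x).hasDerivAt

theorem S1.hp {k : Fin 4} {g : ℝ → ℝ} (h : S1 k g) (j : Fin 4) :
    HP j (fun y => g (y k)) (fun y => if j = k then deriv g (y k) else 0) :=
  HP.coord h.hasDerivAt j k

theorem S1.deriv {j : Fin 4} {g : ℝ → ℝ} (h : S1 j g) : S1 j (deriv g) :=
  (Eff.pd h j).congr fun _ y => by rw [(h.hp j).pd_eq]; simp

theorem S1.add {j : Fin 4} {g k : ℝ → ℝ} (h : S1 j g) (hk : S1 j k) :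
    S1 j fun x => g x + k x := Eff.add h hk

theorem S1.sub {j : Fin 4} {g k : ℝ → ℝ} (h : S1 j g) (hk : S1 j k) :
    S1 j fun x => g x - k x := Eff.sub h hk

theorem S1.mul {j : Fin 4} {g k : ℝ → ℝ} (h : S1 j g) (hk : S1 j k) :
    S1 j fun x => g x * k x := Eff.mul h hk

theorem S1.const (j : Fin 4) (q : ℚ) : S1 j fun _ => (q : ℝ) := Eff.const_rat q

theorem S1.per {j : Fin 4} {g : ℝ → ℝ} (h : S1 j g) (h0 : ∀ x, x ≤ 0 ∨ 7 / 8 ≤ x → g x = 0) :
    S1 j fun x => g (Int.fract x) :=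
  (Eff.periodize h j (δ := 1 / 8) (by norm_num) fun _ y hy => h0 _ (by
    rcases hy with hy | hy
    · exact Or.inl hy
    · exact Or.inr (by linarith))).congr fun _ y => by simp

/-- The step function `σ(a x + b)`. -/
noncomputable def stp (a b : ℚ) (x : ℝ) : ℝ := smoothTransition (a * x + b)

theorem E1.stp (a b : ℚ) : E1 (stp a b) := E1.sigma.affine a b

theorem stp_zero {a b : ℚ} {x : ℝ} (h : a * x + b ≤ 0) : stp a b x = 0 :=
  smoothTransition.zero_of_nonpos h

theorem stp_one {a b : ℚ} {x : ℝ} (h : 1 ≤ a * x + b) : stp a b x = 1 :=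
  smoothTransition.one_of_one_le h

theorem stp_nonneg (a b : ℚ) (x : ℝ) : 0 ≤ stp a b x := smoothTransition.nonneg _

theorem stp_le_one (a b : ℚ) (x : ℝ) : stp a b x ≤ 1 := smoothTransition.le_one _

theorem deriv_stp_zero {a b : ℚ} {x : ℝ} (h : a * x + b ≤ 0 ∨ 1 ≤ a * x + b) :
    deriv (stp a b) x = 0 := by
  rcases h with h | h
  · exact IsLocalMin.deriv_eq_zero (Eventually.of_forall fun z => by
      rw [stp_zero h]; exact stp_nonneg _ _ _)
  · exact IsLocalMax.deriv_eq_zero (Eventually.of_forall fun z => by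
      rw [stp_one h]; exact stp_le_one _ _ _)

theorem hasDerivAt_stp (a b : ℚ) (x : ℝ) : HasDerivAt (stp a b) (deriv (stp a b) x) x :=
  ((E1.stp a b).s1 0).hasDerivAt x

/-- Periodic extension with a cutoff: agrees with `g` on `[3/16, 13/16]`. -/
noncomputable def perz (g : ℝ → ℝ) (x : ℝ) : ℝ :=
  stp 16 (-2) (Int.fract x) * stp (-16) 14 (Int.fract x) * g (Int.fract x)

theorem S1.perz {j : Fin 4} {g : ℝ → ℝ} (h : S1 j g) : S1 j (perz g) := by
  refine S1.per (g := fun x => stp 16 (-2) x * stp (-16) 14 x * g x)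
    ((((E1.stp _ _).s1 j).mul ((E1.stp _ _).s1 j)).mul h) fun x hx => ?_
  rcases hx with hx | hx
  · rw [stp_zero (a := 16) (b := -2) (by push_cast; linarith)]; ring
  · rw [stp_zero (a := -16) (b := 14) (by push_cast; linarith)]; ring

theorem perz_eq (g : ℝ → ℝ) {x : ℝ} (h1 : 3 / 16 ≤ x) (h2 : x ≤ 13 / 16) : perz g x = g x := by
  have : Int.fract x = x := Int.fract_eq_self.2 ⟨by linarith, by linarith⟩
  rw [perz, this, stp_one (by push_cast; linarith), stp_one (by push_cast; linarith)]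
  ring

theorem perz_eventuallyEq (g : ℝ → ℝ) {x : ℝ} (h1 : 1 / 4 ≤ x) (h2 : x ≤ 3 / 4) :
    perz g =ᶠ[𝓝 x] g := by
  filter_upwards [Icc_mem_nhds (show (3 / 16 : ℝ) < x by linarith)
    (show x < (13 / 16 : ℝ) by linarith)] with z hz using perz_eq g hz.1 hz.2

/-- Invariance under integer translation. -/
def ZPer (g : ℝ → ℝ) : Prop := ∀ (x : ℝ) (n : ℤ), g (x + n) = g x

theorem zper_perz (g : ℝ → ℝ) : ZPer (perz g) := fun x n => by
  simp only [perz, Int.fract_add_intCast]

theorem ZPer.deriv {g : ℝ → ℝ} (h : ZPer g) : ZPer (deriv g) := fun x n => by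
  rw [← deriv_comp_add_const g (n : ℝ) x]
  congr 1
  exact funext fun z => h z n

/-- The digit bump: `1` on `[0, 1/2]`, `0` outside `(-1/4, 3/4)`. -/
noncomputable def bump (x : ℝ) : ℝ := stp 4 1 x * stp (-4) 3 x

theorem E1.bump : E1 bump := (E1.stp _ _).mul (E1.stp _ _)

theorem bump_one {x : ℝ} (h1 : 0 ≤ x) (h2 : x ≤ 1 / 2) : bump x = 1 := by
  rw [bump, stp_one (by push_cast; linarith), stp_one (by push_cast; linarith), mul_one]

theorem bump_zero {x : ℝ} (h : x ≤ -1 / 4 ∨ 3 / 4 ≤ x) : bump x = 0 := by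
  rcases h with h | h
  · rw [bump, stp_zero (a := 4) (b := 1) (by push_cast; linarith), zero_mul]
  · rw [bump, stp_zero (a := -4) (b := 3) (by push_cast; linarith), mul_zero]

theorem bump_int_add {m n : ℕ} (h : m ≠ n) {e : ℝ} (h1 : -1 / 8 ≤ e) (h2 : e ≤ 1 / 2) :
    bump ((m : ℝ) - n + e) = 0 := by
  apply bump_zero
  rcases lt_or_gt_of_ne h with h | h
  · have : (m : ℝ) + 1 ≤ n := by exact_mod_cast h
    left; linarith
  · have : (n : ℝ) + 1 ≤ m := by exact_mod_cast h
    right; linarith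

end Vale.Agent.P113
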