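import Vale.Agent.P113.Defs
import Mathlib.Analysis.Calculus.ParametricIntegral
import Mathlib.Analysis.Calculus.Deriv.MeanValue
import Mathlib.Analysis.Calculus.MeanValue
import Mathlib.Analysis.SpecialFunctions.ExpDeriv
import Mathlib.MeasureTheory.Group.Integral

/-! Uniqueness of classical solutions on the torus by the energy method. -/

open Set MeasureTheory Filter Topology

namespace Vale.Agent.P113

theorem shift_zero (x : T3) (j : Fin 3) : shift x j 0 = x := by
  simp [shift]

theorem shift_add (x : T3) (j : Fin 3) (a b : ℝ) :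
    shift x j (a + b) = shift (shift x j a) j b := by
  simp [shift, Pi.single_add, add_assoc]

theorem continuous_shift (j : Fin 3) : Continuous (fun z : T3 × ℝ => shift z.1 j z.2) := by
  unfold shift
  refine continuous_fst.add ?_
  exact (continuous_single (A := fun _ : Fin 3 => UnitAddCircle) j).comp
    ((AddCircle.continuous_mk' 1).comp continuous_snd)

/-- `g'` is the `j`-th derivative of `g` everywhere. -/
def HD (j : Fin 3) (g g' : T3 → ℝ) : Prop :=
  ∀ x, HasDerivAt (fun s : ℝ => g (shift x j s)) (g' x) 0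

theorem HasDx.hd {j : Fin 3} {g : T3 → ℝ} (h : HasDx j g) : HD j g (dx j g) :=
  fun x => (h x).hasDerivAt

theorem HD.dx_eq {j : Fin 3} {g g' : T3 → ℝ} (h : HD j g g') : dx j g = g' :=
  funext fun x => (h x).deriv

theorem HD.hasDx {j : Fin 3} {g g' : T3 → ℝ} (h : HD j g g') : HasDx j g :=
  fun x => (h x).differentiableAt

theorem HD.at {j : Fin 3} {g g' : T3 → ℝ} (h : HD j g g') (x : T3) (s₀ : ℝ) :
    HasDerivAt (fun s : ℝ => g (shift x j s)) (g' (shift x j s₀)) s₀ := by
  have h1 := h (shift x j s₀)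
  have h2 : HasDerivAt (fun s : ℝ => g (shift (shift x j s₀) j (s - s₀)))
      (g' (shift x j s₀)) s₀ := by
    have : HasDerivAt (fun s : ℝ => g (shift (shift x j s₀) j s)) (g' (shift x j s₀))
        (s₀ - s₀) := by simpa using h1
    exact this.comp_sub_const s₀ s₀
  convert h2 using 2 with s
  rw [← shift_add]; congr 2; ring

theorem HD.add {j : Fin 3} {g g' k k' : T3 → ℝ} (h : HD j g g') (hk : HD j k k') :
    HD j (fun x => g x + k x) (fun x => g' x + k' x) := fun x => (h x).add (hk x)

theorem HD.sub {j : Fin 3} {g g' k k' : T3 → ℝ} (h : HD j g g') (hk : HD j k k') :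
    HD j (fun x => g x - k x) (fun x => g' x - k' x) := fun x => (h x).sub (hk x)

theorem HD.mul {j : Fin 3} {g g' k k' : T3 → ℝ} (h : HD j g g') (hk : HD j k k') :
    HD j (fun x => g x * k x) (fun x => g' x * k x + g x * k' x) := fun x => by
  have := (h x).fun_mul (hk x)
  simp only [shift_zero] at this
  exact this

theorem HD.const_mul {j : Fin 3} {g g' : T3 → ℝ} (c : ℝ) (h : HD j g g') :
    HD j (fun x => c * g x) (fun x => c * g' x) := fun x => (h x).const_mul c

theorem integrable_T3 {g : T3 → ℝ} (hg : Continuous g) : Integrable g :=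
  hg.integrable_of_hasCompactSupport (HasCompactSupport.of_compactSpace g)

theorem HD.integral_eq_zero {j : Fin 3} {g g' : T3 → ℝ} (h : HD j g g') (hg : Continuous g)
    (hg' : Continuous g') : ∫ x, g' x = 0 := by
  obtain ⟨C, hC⟩ : ∃ C, ∀ x, ‖g' x‖ ≤ C := by
    obtain ⟨C, hC⟩ := isCompact_univ.exists_bound_of_continuousOn hg'.continuousOn
    exact ⟨C, fun x => hC x (mem_univ _)⟩
  have hc : ∀ s : ℝ, Continuous fun x : T3 => shift x j s := fun s =>
    (continuous_shift j).comp (continuous_id.prodMk continuous_const)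
  have key := hasDerivAt_integral_of_dominated_loc_of_deriv_le (μ := (volume : Measure T3))
    (F := fun (s : ℝ) (x : T3) => g (shift x j s))
    (F' := fun (s : ℝ) (x : T3) => g' (shift x j s)) (x₀ := (0 : ℝ)) (s := univ)
    (bound := fun _ => C) univ_mem
    (Eventually.of_forall fun s => (hg.comp (hc s)).aestronglyMeasurable)
    (integrable_T3 (hg.comp (hc 0))) (hg'.comp (hc 0)).aestronglyMeasurable
    (Eventually.of_forall fun x s _ => hC _) (integrable_const C)
    (Eventually.of_forall fun x s _ => h.at x s)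
  have hconst : (fun s : ℝ => ∫ x, g (shift x j s)) = fun _ => ∫ x, g x := by
    funext s
    exact integral_add_right_eq_self g _
  have h2 := key.2
  rw [hconst] at h2
  have := h2.unique (hasDerivAt_const _ _)
  simpa [shift_zero] using this

theorem ContOn.slice {T : ℝ} {g : ℝ → T3 → ℝ} (h : ContOn T g) {t : ℝ} (ht : t ∈ Icc 0 T) :
    Continuous (g t) := by
  have : ContinuousOn (fun x : T3 => g t x) univ :=
    ContinuousOn.comp (f := fun x : T3 => ((t, x) : ℝ × T3)) h
      (continuous_const.prodMk continuous_id).continuousOn (fun x _ => ⟨ht, mem_univ _⟩)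
  exact continuousOn_univ.1 this

theorem ContOn.bound {T : ℝ} {g : ℝ → T3 → ℝ} (h : ContOn T g) :
    ∃ C, 0 ≤ C ∧ ∀ t ∈ Icc 0 T, ∀ x, |g t x| ≤ C := by
  obtain ⟨C, hC⟩ := (isCompact_Icc.prod isCompact_univ).exists_bound_of_continuousOn h
  exact ⟨max C 0, le_max_right _ _, fun t ht x =>
    (hC (t, x) ⟨ht, mem_univ _⟩).trans (le_max_left _ _)⟩

theorem ContOn.time {T : ℝ} {g : ℝ → T3 → ℝ} (h : ContOn T g) (x : T3) :
    ContinuousOn (fun t => g t x) (Icc 0 T) :=
  ContinuousOn.comp (f := fun t : ℝ => ((t, x) : ℝ × T3)) h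
    (continuous_id.prodMk continuous_const).continuousOn (fun _ ht => ⟨ht, mem_univ _⟩)

theorem ContOn.add {T : ℝ} {g k : ℝ → T3 → ℝ} (h : ContOn T g) (hk : ContOn T k) :
    ContOn T (fun t x => g t x + k t x) := ContinuousOn.add h hk

theorem ContOn.sub {T : ℝ} {g k : ℝ → T3 → ℝ} (h : ContOn T g) (hk : ContOn T k) :
    ContOn T (fun t x => g t x - k t x) := ContinuousOn.sub h hk

theorem ContOn.mul {T : ℝ} {g k : ℝ → T3 → ℝ} (h : ContOn T g) (hk : ContOn T k) :
    ContOn T (fun t x => g t x * k t x) := ContinuousOn.mul h hk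

theorem ContOn.integral {T : ℝ} {g : ℝ → T3 → ℝ} (h : ContOn T g) :
    ContinuousOn (fun t => ∫ x, g t x) (Icc 0 T) := by
  obtain ⟨C, -, hC⟩ := h.bound
  exact continuousOn_of_dominated (bound := fun _ => C)
    (fun t ht => (h.slice ht).aestronglyMeasurable)
    (fun t ht => Eventually.of_forall fun x => hC t ht x) (integrable_const C)
    (Eventually.of_forall fun x => h.time x)

theorem hasDerivAt_integral_time {T : ℝ} {g g' : ℝ → T3 → ℝ} (h : ContOn T g) (h' : ContOn T g')
    (hd : ∀ t ∈ Ioo 0 T, ∀ x, HasDerivAt (fun s => g s x) (g' t x) t) {t : ℝ} (ht : t ∈ Ioo 0 T) :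
    HasDerivAt (fun s => ∫ x, g s x) (∫ x, g' t x) t := by
  obtain ⟨C, -, hC⟩ := h'.bound
  have hn : Ioo 0 T ∈ 𝓝 t := Ioo_mem_nhds ht.1 ht.2
  exact (hasDerivAt_integral_of_dominated_loc_of_deriv_le (μ := (volume : Measure T3))
    (F := g) (F' := g') (x₀ := t) (s := Ioo 0 T) (bound := fun _ => C) hn
    (mem_of_superset hn fun s hs => (h.slice (Ioo_subset_Icc_self hs)).aestronglyMeasurable)
    (integrable_T3 (h.slice (Ioo_subset_Icc_self ht)))
    (h'.slice (Ioo_subset_Icc_self ht)).aestronglyMeasurable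
    (Eventually.of_forall fun x s hs => hC s (Ioo_subset_Icc_self hs) x) (integrable_const C)
    (Eventually.of_forall fun x s hs => hd s hs x)).2

theorem IsClassical.hasDerivAt_time {ν : ℝ} {f : ℝ → T3 → Fin 3 → ℝ} {T : ℝ}
    {u : ℝ → T3 → Fin 3 → ℝ} {p : ℝ → T3 → ℝ} (h : IsClassical ν f T u p) (i : Fin 3)
    {t : ℝ} (ht : t ∈ Ioo 0 T) (x : T3) :
    HasDerivAt (fun s => u s x i) (dt T (fun s y => u s y i) t x) t :=
  ((h.diff_t i x t (Ioo_subset_Icc_self ht)).hasDerivWithinAt).hasDerivAt
    (Icc_mem_nhds ht.1 ht.2)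

/-- The pointwise algebra of the energy estimate. -/
theorem energy_alg (ν B : ℝ) (hν : 0 ≤ ν) (u v ut vt dp dq f : Fin 3 → ℝ) (r : ℝ)
    (du dv ddu ddv : Fin 3 → Fin 3 → ℝ) (hB : ∀ i j, |du i j| ≤ B)
    (h1 : ∀ i, ut i + ∑ j, u j * du i j = - dp i + ν * ∑ j, ddu i j + f i)
    (h2 : ∀ i, vt i + ∑ j, v j * dv i j = - dq i + ν * ∑ j, ddv i j + f i)
    (d1 : ∑ j, du j j = 0) (d2 : ∑ j, dv j j = 0) :
    ∑ i, ((vt i - ut i) * (v i - u i) + (v i - u i) * (vt i - ut i)) ≤
      6 * B * ∑ i, (v i - u i) * (v i - u i) -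
      ∑ j, ((dv j j * ∑ i, (v i - u i) * (v i - u i) +
          v j * ∑ i, ((dv i j - du i j) * (v i - u i) + (v i - u i) * (dv i j - du i j)))
        + 2 * ((dv j j - du j j) * r + (v j - u j) * (dq j - dp j))
        - 2 * ν * ∑ i, ((dv i j - du i j) * (dv i j - du i j)
          + (v i - u i) * (ddv i j - ddu i j))) := by
  have hb : ∀ i j, -((v i - u i) * (v j - u j) * du i j) ≤
      B * (((v i - u i) * (v i - u i) + (v j - u j) * (v j - u j)) / 2) := by
    intro i j
    have h3 : |(v i - u i) * (v j - u j)| ≤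
        ((v i - u i) * (v i - u i) + (v j - u j) * (v j - u j)) / 2 := by
      rw [abs_le]
      constructor <;> nlinarith [sq_nonneg ((v i - u i) + (v j - u j)),
        sq_nonneg ((v i - u i) - (v j - u j))]
    calc -((v i - u i) * (v j - u j) * du i j) ≤ |(v i - u i) * (v j - u j) * du i j| :=
          neg_le_abs _
      _ = |du i j| * |(v i - u i) * (v j - u j)| := by rw [abs_mul, mul_comm]
      _ ≤ _ := mul_le_mul (hB i j) h3 (abs_nonneg _) ((abs_nonneg _).trans (hB i j))
  have hsq : 0 ≤ ν * ∑ j, ∑ i, (dv i j - du i j) * (dv i j - du i j) :=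
    mul_nonneg hν (Finset.sum_nonneg fun j _ => Finset.sum_nonneg fun i _ => mul_self_nonneg _)
  have e1 : ∀ i, vt i - ut i = -(∑ j, v j * dv i j - ∑ j, u j * du i j) - (dq i - dp i)
      + ν * (∑ j, ddv i j - ∑ j, ddu i j) := by
    intro i; linarith [h1 i, h2 i]
  simp only [e1]
  simp only [Fin.sum_univ_three] at *
  have hb00 := hb 0 0
  have hb01 := hb 0 1
  have hb02 := hb 0 2
  have hb10 := hb 1 0
  have hb11 := hb 1 1
  have hb12 := hb 1 2
  have hb20 := hb 2 0
  have hb21 := hb 2 1
  have hb22 := hb 2 2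
  have e2 : dv 2 2 = - dv 0 0 - dv 1 1 := by linarith
  have e3 : du 2 2 = - du 0 0 - du 1 1 := by linarith
  rw [e2, e3] at hsq
  rw [e3] at hb22
  rw [e2, e3]
  linarith

theorem HD.sum3 {j : Fin 3} {g g' : Fin 3 → T3 → ℝ} (h : ∀ i, HD j (g i) (g' i)) :
    HD j (fun x => ∑ i, g i x) (fun x => ∑ i, g' i x) := fun x =>
  HasDerivAt.fun_sum fun i _ => h i x

theorem velocity_unique {ν : ℝ} (hν : 0 ≤ ν) {f : ℝ → T3 → Fin 3 → ℝ} {T : ℝ}
    {u v : ℝ → T3 → Fin 3 → ℝ} {p q : ℝ → T3 → ℝ} (hu : IsClassical ν f T u p)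
    (hv : IsClassical ν f T v q) : ∀ t ∈ Icc 0 T, v t = u t := by
  -- a bound for the gradient of u
  obtain ⟨B, hB0, hB⟩ : ∃ B, 0 ≤ B ∧ ∀ i j, ∀ t ∈ Icc 0 T, ∀ x,
      |dx j (fun y => u t y i) x| ≤ B := by
    choose C hC0 hC using fun i j => (hu.cont_ux i j).bound
    refine ⟨∑ i, ∑ j, C i j, Finset.sum_nonneg fun i _ => Finset.sum_nonneg fun j _ => hC0 i j,
      fun i j t ht x => (hC i j t ht x).trans ?_⟩
    calc C i j ≤ ∑ j, C i j := Finset.single_le_sum (fun j _ => hC0 i j) (Finset.mem_univ j)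
      _ ≤ _ := Finset.single_le_sum (f := fun i => ∑ j, C i j)
        (fun i _ => Finset.sum_nonneg fun j _ => hC0 i j) (Finset.mem_univ i)
  set e : ℝ → T3 → ℝ := fun t x => ∑ i, (v t x i - u t x i) * (v t x i - u t x i) with he
  set e' : ℝ → T3 → ℝ := fun t x => ∑ i,
    ((dt T (fun s y => v s y i) t x - dt T (fun s y => u s y i) t x) * (v t x i - u t x i) +
      (v t x i - u t x i) * (dt T (fun s y => v s y i) t x - dt T (fun s y => u s y i) t x))
    with he'
  have cw : ∀ i, ContOn T (fun t x => v t x i - u t x i) := fun i =>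
    (hv.cont_u i).sub (hu.cont_u i)
  have ce : ContOn T e := continuousOn_finsetSum _ fun i _ => (cw i).mul (cw i)
  have ce' : ContOn T e' := continuousOn_finsetSum _ fun i _ =>
    (((hv.cont_ut i).sub (hu.cont_ut i)).mul (cw i)).add
      ((cw i).mul ((hv.cont_ut i).sub (hu.cont_ut i)))
  have hE : ∀ t ∈ Ioo 0 T, HasDerivAt (fun s => ∫ x, e s x) (∫ x, e' t x) t := by
    intro t ht
    refine hasDerivAt_integral_time ce ce' (fun t ht x => ?_) ht
    refine HasDerivAt.fun_sum fun i _ => ?_
    have := (hv.hasDerivAt_time i ht x).sub (hu.hasDerivAt_time i ht x)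
    exact this.mul this
  have hle : ∀ t ∈ Ioo 0 T, ∫ x, e' t x ≤ 6 * B * ∫ x, e t x := by
    intro t ht
    have ht' := Ioo_subset_Icc_self ht
    have dw : ∀ i j, HD j (fun x => v t x i - u t x i)
        (fun x => dx j (fun y => v t y i) x - dx j (fun y => u t y i) x) := fun i j =>
      (hv.diff_x t ht' i j).hd.sub (hu.diff_x t ht' i j).hd
    have ddw : ∀ i j, HD j (fun x => dx j (fun y => v t y i) x - dx j (fun y => u t y i) x)
        (fun x => dx j (dx j (fun y => v t y i)) x - dx j (dx j (fun y => u t y i)) x) :=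
      fun i j => (hv.diff_xx t ht' i j j).hd.sub (hu.diff_xx t ht' i j j).hd
    have dr : ∀ j, HD j (fun x => q t x - p t x) (fun x => dx j (q t) x - dx j (p t) x) :=
      fun j => (hv.diff_p t ht' j).hd.sub (hu.diff_p t ht' j).hd
    have hF := fun j => ((((hv.diff_x t ht' j j).hd.mul
      (HD.sum3 fun i => (dw i j).mul (dw i j))).add
      (((dw j j).mul (dr j)).const_mul 2)).sub
      ((HD.sum3 fun i => (dw i j).mul (ddw i j)).const_mul (2 * ν)))
    have c1 : ∀ i, Continuous fun x => v t x i := fun i => (hv.cont_u i).slice ht'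
    have c2 : ∀ i, Continuous fun x => u t x i := fun i => (hu.cont_u i).slice ht'
    have c3 : ∀ i j, Continuous fun x => dx j (fun y => v t y i) x :=
      fun i j => (hv.cont_ux i j).slice ht'
    have c4 : ∀ i j, Continuous fun x => dx j (fun y => u t y i) x :=
      fun i j => (hu.cont_ux i j).slice ht'
    have c5 : ∀ i j, Continuous fun x => dx j (dx j (fun y => v t y i)) x :=
      fun i j => (hv.cont_uxx i j j).slice ht'
    have c6 : ∀ i j, Continuous fun x => dx j (dx j (fun y => u t y i)) x :=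
      fun i j => (hu.cont_uxx i j j).slice ht'
    have c7 : Continuous fun x => p t x := hu.cont_p.slice ht'
    have c8 : Continuous fun x => q t x := hv.cont_p.slice ht'
    have c9 : ∀ j, Continuous fun x => dx j (p t) x := fun j => (hu.cont_px j).slice ht'
    have c10 : ∀ j, Continuous fun x => dx j (q t) x := fun j => (hv.cont_px j).slice ht'
    set F' : Fin 3 → T3 → ℝ := fun j x =>
      ((dx j (fun y => v t y j) x * ∑ i, (v t x i - u t x i) * (v t x i - u t x i) +
          v t x j * ∑ i, ((dx j (fun y => v t y i) x - dx j (fun y => u t y i) x) *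
            (v t x i - u t x i) + (v t x i - u t x i) *
              (dx j (fun y => v t y i) x - dx j (fun y => u t y i) x)))
        + 2 * ((dx j (fun y => v t y j) x - dx j (fun y => u t y j) x) * (q t x - p t x) +
          (v t x j - u t x j) * (dx j (q t) x - dx j (p t) x))
        - 2 * ν * ∑ i, ((dx j (fun y => v t y i) x - dx j (fun y => u t y i) x) *
          (dx j (fun y => v t y i) x - dx j (fun y => u t y i) x)
          + (v t x i - u t x i) * (dx j (dx j (fun y => v t y i)) x -
            dx j (dx j (fun y => u t y i)) x))) with hF'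
    have cF' : ∀ j, Continuous (F' j) := fun j => by
      simp only [hF']; fun_prop
    have iF : ∀ j, ∫ x, F' j x = 0 := fun j =>
      (hF j).integral_eq_zero (by fun_prop) (cF' j)
    have hpt : ∀ x, e' t x ≤ 6 * B * e t x - ∑ j, F' j x := fun x =>
      energy_alg ν B hν (u t x) (v t x) (fun i => dt T (fun s y => u s y i) t x)
        (fun i => dt T (fun s y => v s y i) t x) (fun i => dx i (p t) x) (fun i => dx i (q t) x)
        (f t x) (q t x - p t x) (fun i j => dx j (fun y => u t y i) x)
        (fun i j => dx j (fun y => v t y i) x) (fun i j => dx j (dx j (fun y => u t y i)) x)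
        (fun i j => dx j (dx j (fun y => v t y i)) x) (fun i j => hB i j t ht' x)
        (hu.momentum t ht' x) (hv.momentum t ht' x) (hu.div_free t ht' x) (hv.div_free t ht' x)
    have i1 : Integrable (fun x => 6 * B * e t x) :=
      (integrable_T3 (ce.slice ht')).const_mul _
    have i2 : Integrable (fun x => ∑ j, F' j x) :=
      integrable_finsetSum _ fun j _ => integrable_T3 (cF' j)
    calc ∫ x, e' t x ≤ ∫ x, (6 * B * e t x - ∑ j, F' j x) :=
          integral_mono (integrable_T3 (ce'.slice ht')) (i1.sub i2) hpt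
      _ = 6 * B * ∫ x, e t x := by
          rw [integral_sub i1 i2, integral_const_mul,
            integral_finsetSum _ fun j _ => integrable_T3 (cF' j)]
          simp [iF]
  -- Gronwall
  have hanti : AntitoneOn (fun t => Real.exp (-(6 * B) * t) * ∫ x, e t x) (Icc 0 T) := by
    have hd : ∀ t ∈ Ioo 0 T, HasDerivAt (fun t => Real.exp (-(6 * B) * t) * ∫ x, e t x)
        (Real.exp (-(6 * B) * t) * (-(6 * B)) * (∫ x, e t x) +
          Real.exp (-(6 * B) * t) * ∫ x, e' t x) t := by
      intro t ht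
      have h1 : HasDerivAt (fun t : ℝ => Real.exp (-(6 * B) * t))
          (Real.exp (-(6 * B) * t) * (-(6 * B))) t := by
        simpa using ((hasDerivAt_id t).const_mul (-(6 * B))).exp
      exact h1.mul (hE t ht)
    refine antitoneOn_of_deriv_nonpos (convex_Icc _ _) ?_ ?_ ?_
    · exact ContinuousOn.mul (by fun_prop) ce.integral
    · rw [interior_Icc]; exact fun t ht => (hd t ht).differentiableAt.differentiableWithinAt
    · rw [interior_Icc]
      intro t ht
      rw [(hd t ht).deriv]
      have := mul_le_mul_of_nonneg_left (hle t ht) (Real.exp_pos (-(6 * B) * t)).le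
      linarith
  intro t ht
  have h0 : (0 : ℝ) ∈ Icc 0 T := ⟨le_rfl, ht.1.trans ht.2⟩
  have h1 := hanti h0 ht ht.1
  have he0 : ∫ x, e 0 x = 0 := by simp [he, hu.at_rest, hv.at_rest]
  simp only [he0, mul_zero] at h1
  have hnn : ∀ x, 0 ≤ e t x := fun x => Finset.sum_nonneg fun i _ => mul_self_nonneg _
  have h2 : ∫ x, e t x = 0 := by
    refine le_antisymm ?_ (integral_nonneg hnn)
    by_contra hc
    push Not at hc
    exact absurd h1 (not_le.2 (mul_pos (Real.exp_pos _) hc))
  have h3 : e t =ᵐ[volume] 0 :=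
    (integral_eq_zero_iff_of_nonneg hnn (integrable_T3 (ce.slice ht))).1 h2
  have h4 : e t = 0 := (Continuous.ae_eq_iff_eq volume (ce.slice ht) continuous_const).1 h3
  funext x i
  have h5 : ∑ i, (v t x i - u t x i) * (v t x i - u t x i) = 0 := congrFun h4 x
  have h6 := (Finset.sum_eq_zero_iff_of_nonneg (fun i _ => mul_self_nonneg _)).1 h5 i
    (Finset.mem_univ i)
  linarith [mul_self_eq_zero.1 h6]

theorem const_of_hd {r : T3 → ℝ} (h : ∀ j, HD j r (fun _ => 0)) (x y : T3) : r y = r x := by
  have key : ∀ j z s, r (shift z j s) = r z := by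
    intro j z s
    have hd : ∀ s₀, HasDerivAt (fun s : ℝ => r (shift z j s)) 0 s₀ := fun s₀ => (h j).at z s₀
    have := is_const_of_deriv_eq_zero (fun s₀ => (hd s₀).differentiableAt)
      (fun s₀ => (hd s₀).deriv) s 0
    simpa [shift_zero] using this
  have hs : ∀ j, ∃ s : ℝ, (s : UnitAddCircle) = y j - x j := fun j =>
    QuotientAddGroup.mk_surjective _
  choose s hs using hs
  have : y = shift (shift (shift x 0 (s 0)) 1 (s 1)) 2 (s 2) := by
    funext j
    fin_cases j <;> simp [shift, hs]
  rw [this, key, key, key]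

theorem classical_unique {ν : ℝ} (hν : 0 ≤ ν) {f : ℝ → T3 → Fin 3 → ℝ} {T : ℝ}
    {u v : ℝ → T3 → Fin 3 → ℝ} {p q : ℝ → T3 → ℝ} (hu : IsClassical ν f T u p)
    (hv : IsClassical ν f T v q) : ∀ t ∈ Icc 0 T, v t = u t ∧ q t = p t := by
  have hvu := velocity_unique hν hu hv
  intro t ht
  refine ⟨hvu t ht, ?_⟩
  have hdx : ∀ j x, dx j (q t) x = dx j (p t) x := by
    intro j x
    have h1 := hu.momentum t ht x j
    have h2 := hv.momentum t ht x j
    have h3 : dt T (fun s y => v s y j) t x = dt T (fun s y => u s y j) t x :=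
      derivWithin_congr (fun s hs => by simp [hvu s hs]) (by simp [hvu t ht])
    rw [h3, hvu t ht] at h2
    linarith
  have hd : ∀ j, HD j (fun x => q t x - p t x) (fun _ => 0) := by
    intro j
    have := (hv.diff_p t ht j).hd.sub (hu.diff_p t ht j).hd
    simpa [hdx] using this
  have hint : ∫ x, (q t x - p t x) = 0 := by
    rw [integral_sub (integrable_T3 (hv.cont_p.slice ht)) (integrable_T3 (hu.cont_p.slice ht)),
      hv.mean_p t ht, hu.mean_p t ht, sub_zero]
  funext x
  have hc : (fun y => q t y - p t y) = fun _ => q t x - p t x :=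
    funext fun y => const_of_hd hd x y
  rw [hc, integral_const] at hint
  have hpos : (volume : Measure T3).real univ ≠ 0 := by
    have h1 : (volume : Measure T3) univ ≠ 0 := (isOpen_univ.measure_pos _ univ_nonempty).ne'
    simp only [Measure.real, ne_eq, ENNReal.toReal_eq_zero_iff, h1, false_or]
    exact measure_ne_top _ _
  have := (smul_eq_zero.1 hint).resolve_left hpos
  linarith

end Vale.Agent.P113
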