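import Vale.Agent.P113.Defs
import Vale.Agent.Lib.Comp.FunProp
import Mathlib.Computability.TuringMachine.ToPartrec
import Mathlib.Computability.PartrecBasis

/-! The halting predicate is recursively enumerable, and a universal Post-Turing machine. -/

open Vale.Agent.Lib.Comp Turing

namespace Vale.Agent.P113

def simStep (tb : List (List (ℕ × ℕ × ℕ))) (c : ℕ × List ℕ × List ℕ) : ℕ × List ℕ × List ℕ :=
  bif decide (((tb.getD c.1 []).getD (c.2.2.headD 0) (0, 0, 0)).2.2 = 0) then
    (((tb.getD c.1 []).getD (c.2.2.headD 0) (0, 0, 0)).1, c.2.1.tail,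
      c.2.1.headD 0 :: ((tb.getD c.1 []).getD (c.2.2.headD 0) (0, 0, 0)).2.1 :: c.2.2.tail)
  else bif decide (((tb.getD c.1 []).getD (c.2.2.headD 0) (0, 0, 0)).2.2 = 1) then
    (((tb.getD c.1 []).getD (c.2.2.headD 0) (0, 0, 0)).1, c.2.1,
      ((tb.getD c.1 []).getD (c.2.2.headD 0) (0, 0, 0)).2.1 :: c.2.2.tail)
  else
    (((tb.getD c.1 []).getD (c.2.2.headD 0) (0, 0, 0)).1,
      ((tb.getD c.1 []).getD (c.2.2.headD 0) (0, 0, 0)).2.1 :: c.2.1, c.2.2.tail)

def haltsIn (d : Data) (k : ℕ) : Bool :=
  d.2.1.getD ((simStep d.2.2.1)^[k] (d.1, [], d.2.2.2)).1 false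

theorem pr_simStep :
    Primrec fun p : List (List (ℕ × ℕ × ℕ)) × ℕ × List ℕ × List ℕ => simStep p.1 p.2 := by
  unfold simStep
  fun_prop

theorem pr_haltsIn : Primrec fun p : Data × ℕ => haltsIn p.1 p.2 := by
  unfold haltsIn
  refine pr_getD false (by fun_prop) (pr_fst (pr_iterate
    (h := fun (p : Data × ℕ) c => simStep p.1.2.2.1 c) Primrec.snd (by fun_prop) ?_))
  exact pr_simStep.comp (g := fun z : (Data × ℕ) × ℕ × List ℕ × List ℕ => (z.1.1.2.2.1, z.2))
    (by fun_prop)

def SimRel (M : Machine) (c : Fin (M.nq + 1) × (ℤ → Fin (M.ns + 1)) × ℤ)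
    (s : ℕ × List ℕ × List ℕ) : Prop :=
  s.1 = c.1.val ∧ (∀ i : ℕ, s.2.2.getD i 0 = (c.2.1 (c.2.2 + i)).val) ∧
    ∀ i : ℕ, s.2.1.getD i 0 = (c.2.1 (c.2.2 - 1 - i)).val

theorem headD_eq_getD (l : List ℕ) : l.headD 0 = l.getD 0 0 := by cases l <;> rfl

theorem tail_getD (l : List ℕ) (i : ℕ) : l.tail.getD i 0 = l.getD (i + 1) 0 := by
  cases l <;> simp

theorem SimRel.step {M : Machine} (w : List (Fin (M.ns + 1))) {c s} (h : SimRel M c s) :
    SimRel M (M.step c) (simStep (M.data w).2.2.1 s) := by
  obtain ⟨q, tape, pos⟩ := c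
  obtain ⟨q', L, R⟩ := s
  obtain ⟨h1, h2, h3⟩ := h
  simp only at h1 h2 h3
  have hh : R.headD 0 = (tape pos).val := by rw [headD_eq_getD, h2 0]; simp
  have hr : (((M.data w).2.2.1.getD q' []).getD (R.headD 0) (0, 0, 0)) =
      ((M.trans q (tape pos)).1.val, (M.trans q (tape pos)).2.1.val,
        (M.trans q (tape pos)).2.2.val) := by
    rw [hh, h1]
    simp [Machine.data, List.getD_eq_getElem?_getD, -List.ofFn_succ,
      Nat.lt_succ_iff.1 q.isLt, Nat.lt_succ_iff.1 (tape pos).isLt]
  simp only [simStep, hr, Machine.step]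
  generalize M.trans q (tape pos) = r
  obtain ⟨q2, b, m⟩ := r
  fin_cases m
  · refine ⟨rfl, fun i => ?_, fun i => ?_⟩
    · rcases i with _ | _ | i
      · simp only [headD_eq_getD, h3 0]
        simp
      · simp
      · simp only [decide_true, cond_true, List.getD_cons_succ, tail_getD, h2]
        rw [Function.update_of_ne (by push_cast; omega)]
        congr 2; push_cast; omega
    · simp only [decide_true, cond_true, tail_getD, h3]
      rw [Function.update_of_ne (by push_cast; omega)]
      congr 2; push_cast; omega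
  · refine ⟨rfl, fun i => ?_, fun i => ?_⟩
    · rcases i with _ | i
      · simp
      · simp only [Nat.one_ne_zero, decide_false, decide_true, cond_true, cond_false,
          List.getD_cons_succ, tail_getD, h2]
        rw [Function.update_of_ne (by push_cast; omega)]
        congr 2; push_cast; omega
    · simp only [Nat.one_ne_zero, decide_false, decide_true, cond_true, cond_false, h3]
      rw [Function.update_of_ne (by push_cast; omega)]
      congr 2; push_cast; omega
  · refine ⟨rfl, fun i => ?_, fun i => ?_⟩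
    · simp only [Nat.reduceEqDiff, decide_false, cond_false, tail_getD, h2]
      rw [Function.update_of_ne (by push_cast; omega)]
      congr 2; push_cast; omega
    · rcases i with _ | i
      · simp only [Nat.reduceEqDiff, decide_false, cond_false, List.getD_cons_zero]
        rw [show pos + ((2 : ℕ) : ℤ) - 1 - 1 - ((0 : ℕ) : ℤ) = pos by push_cast; omega]
        simp
      · simp only [Nat.reduceEqDiff, decide_false, cond_false, List.getD_cons_succ, h3]
        rw [Function.update_of_ne (by push_cast; omega)]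
        congr 2; push_cast; omega

theorem simRel_iterate (M : Machine) (w : List (Fin (M.ns + 1))) (k : ℕ) :
    SimRel M (M.step^[k] (M.first w))
      ((simStep (M.data w).2.2.1)^[k] ((M.data w).1, [], (M.data w).2.2.2)) := by
  induction k with
  | zero =>
    refine ⟨rfl, fun i => ?_, fun i => ?_⟩
    · simp only [Function.iterate_zero, id, Machine.data, Machine.first, zero_add,
        Int.natCast_nonneg, if_true, Int.toNat_natCast, List.getD_eq_getElem?_getD,
        List.getElem?_map]
      cases w[i]? <;> rfl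
    · simp only [Function.iterate_zero, id, Machine.first]
      rw [if_neg (by omega)]; rfl
  | succ k ih =>
    rw [Function.iterate_succ_apply', Function.iterate_succ_apply']
    exact ih.step w

theorem halts_iff (M : Machine) (w : List (Fin (M.ns + 1))) :
    M.Halts w ↔ ∃ k, haltsIn (M.data w) k = true := by
  refine exists_congr fun k => ?_
  have h := (simRel_iterate M w k).1
  unfold haltsIn
  rw [h]
  simp [Machine.data, List.getD_eq_getElem?_getD, -List.ofFn_succ,
    Nat.lt_succ_iff.1 (Fin.isLt _)]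

def testR (N m : ℕ) : Bool :=
  decide (N + 1 = 2 ^ (m.unpair.1 + 1)) &&
    Option.elim (Encodable.decode (α := Data) m.unpair.1) false fun d => haltsIn d m.unpair.2

theorem pr_testR : Primrec fun p : ℕ × ℕ => testR p.1 p.2 := by
  unfold testR
  refine pr_and (by fun_prop) (pr_optElim
    (h := fun (p : ℕ × ℕ) (d : Data) => haltsIn d p.2.unpair.2)
    (Primrec.decode.comp (by fun_prop)) (Primrec.const _) ?_)
  exact pr_haltsIn.comp (g := fun z : (ℕ × ℕ) × Data => (z.2, z.1.2.unpair.2)) (by fun_prop)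

theorem testR_iff (d : Data) :
    (∃ m, testR (2 ^ (Encodable.encode d + 1) - 1) m = true) ↔ ∃ k, haltsIn d k = true := by
  have hp : 2 ^ (Encodable.encode d + 1) - 1 + 1 = 2 ^ (Encodable.encode d + 1) :=
    Nat.sub_add_cancel Nat.one_le_two_pow
  constructor
  · rintro ⟨m, hm⟩
    simp only [testR, hp, Bool.and_eq_true, decide_eq_true_eq] at hm
    have h1 : m.unpair.1 = Encodable.encode d := by
      have := Nat.pow_right_injective (le_refl 2) hm.1
      omega
    rw [h1, Encodable.encodek] at hm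
    exact ⟨_, hm.2⟩
  · rintro ⟨k, hk⟩
    exact ⟨Nat.pair (Encodable.encode d) k, by simp [testR, hp, hk]⟩

theorem exists_code_halts : ∃ c : ToPartrec.Code, ∀ N : ℕ,
    (c.eval [N]).Dom ↔ ∃ m, testR N m = true := by
  have h1 : Partrec fun N : ℕ => Nat.rfind fun m => (Part.some (testR N m) : Part Bool) :=
    Partrec.rfind (p := fun N m => Part.some (testR N m)) pr_testR.to_comp.partrec
  obtain ⟨c, hc⟩ := ToPartrec.Code.exists_code (Nat.Partrec'.part_iff₁.2 h1)
  refine ⟨c, fun N => ?_⟩
  have h2 := hc ⟨[N], rfl⟩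
  simp only at h2
  rw [h2]
  refine (Nat.rfind_dom (p := fun m => (Part.some (testR N m) : Part Bool))).trans ?_
  simp

theorem trNat_ones (n : ℕ) :
    PartrecToTM2.trNat (2 ^ (n + 1) - 1) = List.replicate (n + 1) PartrecToTM2.Γ'.bit1 := by
  have key : ∃ p : PosNum, (p : ℕ) = 2 ^ (n + 1) - 1 ∧
      PartrecToTM2.trPosNum p = List.replicate (n + 1) PartrecToTM2.Γ'.bit1 := by
    induction n with
    | zero => exact ⟨1, rfl, rfl⟩
    | succ n ih =>
      obtain ⟨p, h1, h2⟩ := ih
      refine ⟨p.bit1, ?_, by rw [PartrecToTM2.trPosNum, h2]; rfl⟩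
      have : 1 ≤ 2 ^ (n + 1) := Nat.one_le_two_pow
      simp only [PosNum.cast_bit1, h1, pow_succ 2 (n + 1)]
      omega
  obtain ⟨p, h1, h2⟩ := key
  rw [← h1, PartrecToTM2.trNat]
  have : ((p : ℕ) : Num) = Num.pos p := PosNum.of_to_nat' p ▸ by simp
  rw [this]
  exact h2

instance instFintypeK : Fintype PartrecToTM2.K' :=
  ⟨{PartrecToTM2.K'.main, PartrecToTM2.K'.rev, PartrecToTM2.K'.aux, PartrecToTM2.K'.stack},
    fun x => by cases x <;> simp⟩

theorem finite_machine {Γ Λ : Type} [Inhabited Γ] [Inhabited Λ] (M : TM0.Machine Γ Λ)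
    (S : Finset Λ) (ss : TM0.Supports M (S : Set Λ)) :
    ∃ (Q : Type) (_ : Fintype Q) (_ : Inhabited Q) (U : TM0.Machine Γ Q),
      ∀ l : List Γ, (TM0.eval U l).Dom ↔ (TM0.eval M l).Dom := by
  classical
  let _ : Inhabited S := ⟨⟨default, ss.1⟩⟩
  let g₁ : PointedMap Λ S := ⟨fun q => if h : q ∈ S then ⟨q, h⟩ else default, dif_pos ss.1⟩
  let f : PointedMap Γ Γ := ⟨id, rfl⟩
  refine ⟨S, inferInstance, inferInstance, M.map f f g₁ Subtype.val, fun l => ?_⟩
  have hr := TM0.Machine.map_respects M f f g₁ Subtype.val ss (fun _ => rfl)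
    (fun q hq => by simp only [g₁]; rw [dif_pos (Finset.mem_coe.1 hq)])
  have := StateTransition.tr_eval_dom hr (a₁ := TM0.init l) (a₂ := TM0.init l)
    ⟨ss.1, by rw [TM0.map_init]; simp [f]⟩
  exact this

theorem exists_universal : ∃ (Γ Q : Type) (_ : Fintype Γ) (_ : Inhabited Γ) (_ : Fintype Q)
    (_ : Inhabited Q) (U : TM0.Machine Γ Q) (a b : Γ), ∀ d : Data,
      (TM0.eval U (a :: List.replicate (Encodable.encode d + 1) b)).Dom ↔
        ∃ k, haltsIn d k = true := by
  obtain ⟨c, hc⟩ := exists_code_halts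
  let _ : Inhabited PartrecToTM2.Λ' := ⟨PartrecToTM2.trNormal c PartrecToTM2.Cont'.halt⟩
  have s2 := PartrecToTM2.tr_supports c PartrecToTM2.Cont'.halt
  have s1 := TM2to1.tr_supports PartrecToTM2.tr s2
  have s0 := TM1to0.tr_supports _ s1
  obtain ⟨Q, hQ, hQi, U, hU⟩ := finite_machine _ _ s0
  refine ⟨_, Q, inferInstance, inferInstance, hQ, hQi, U,
    (true, Function.update (fun _ => none) PartrecToTM2.K'.main (some PartrecToTM2.Γ'.cons)),
    (false, Function.update (fun _ => none) PartrecToTM2.K'.main (some PartrecToTM2.Γ'.bit1)),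
    fun d => ?_⟩
  rw [← testR_iff, ← hc, hU, TM1to0.tr_eval]
  have h1 := TM2to1.tr_eval_dom PartrecToTM2.tr PartrecToTM2.K'.main
    (PartrecToTM2.trList [2 ^ (Encodable.encode d + 1) - 1])
  have h2 : TM2to1.trInit (Γ := fun _ : PartrecToTM2.K' => PartrecToTM2.Γ') PartrecToTM2.K'.main
      (PartrecToTM2.trList [2 ^ (Encodable.encode d + 1) - 1]) =
      (true, Function.update (fun _ => none) PartrecToTM2.K'.main (some PartrecToTM2.Γ'.cons)) ::
        List.replicate (Encodable.encode d + 1) (false, Function.update (fun _ => none)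
          PartrecToTM2.K'.main (some PartrecToTM2.Γ'.bit1)) := by
    simp only [TM2to1.trInit, trNat_ones, PartrecToTM2.trList, List.reverse_append,
      List.reverse_cons, List.reverse_nil, List.nil_append, List.reverse_replicate,
      List.singleton_append]
    exact congrArg₂ List.cons rfl List.map_replicate
  rw [h2] at h1
  refine h1.trans ?_
  have h3 : (TM2.init PartrecToTM2.K'.main
      (PartrecToTM2.trList [2 ^ (Encodable.encode d + 1) - 1]) : PartrecToTM2.Cfg') =
      PartrecToTM2.init c [2 ^ (Encodable.encode d + 1) - 1] := by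
    simp only [TM2.init, PartrecToTM2.init]
    congr 1
    funext k
    cases k <;> rfl
  have h4 := PartrecToTM2.tr_eval c [2 ^ (Encodable.encode d + 1) - 1]
  rw [← h3] at h4
  change (StateTransition.eval _ _).Dom ↔ _
  rw [h4]
  rfl

end Vale.Agent.P113
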